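import Vale.Agent.P151.Reduction.Quenched

/-!
One hop without sprinkling: contacts of the first ball are joined to open seeds, most open seeds
are good given the seed edges, and the quenched connection inequality passes the future on.
-/

open Finset

namespace Vale.Agent.P151.Red

open Vale.Agent.P151.Fin
open P165 (cl cl_mono)

variable {W : Type*} [DecidableEq W] {p : Sym2 W → ℝ}

/-- An open seed is rarely bad given a revealed set containing it. -/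
theorem bad_seed_le (h0 : ∀ e, 0 ≤ p e) (h1 : ∀ e, p e ≤ 1) {S R Ox : Finset (Sym2 W)} (c : W)
    {F : Set W → Prop} (hF : ∀ C D, C ⊆ D → F C → F D) {s g g₀ : ℝ} (hd : Disjoint S R)
    (hOx : Ox ⊆ S) (hs : ∏ e ∈ Ox, p e = s)
    (hg₀ : pr p (S ∪ R) (fun e => ¬ F (cl {c} (Ox ∪ e))) ≤ g₀) :
    pr p S (fun σ => Ox ⊆ σ ∧ g < pr p R fun e => ¬ F (cl {c} (σ ∪ e))) * g ≤ s * g₀ := by
  refine (pr_quenched_markov h0 h1 hd (fun σ => Ox ⊆ σ) (fun ω => ¬ F (cl {c} ω)) g).trans ?_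
  have hc : pr p (S ∪ R) (fun ω => Ox ⊆ ω ∩ S ∧ ¬ F (cl {c} ω)) ≤
      ev p (S ∪ R) fun ω => ind (Ox ⊆ ω) * ind (¬ F (cl {c} (Ox ∪ ω))) := by
    refine ev_mono h0 h1 fun ω _ => ?_
    rw [← ind_and]
    refine ind_mono fun h => ?_
    have hO : Ox ⊆ ω := h.1.trans inter_subset_left
    exact ⟨hO, by rw [union_eq_right.2 hO]; exact h.2⟩
  have hmono : Monotone fun ω : Finset (Sym2 W) => ind (Ox ⊆ ω) :=
    fun _ _ h => ind_mono fun hx => hx.trans h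
  have hanti : Antitone fun ω : Finset (Sym2 W) => ind (¬ F (cl {c} (Ox ∪ ω))) :=
    fun _ _ h => ind_mono fun hn hf =>
      hn (hF _ _ (cl_mono subset_rfl (union_subset_union_right h)) hf)
  refine hc.trans ((ev_mul_le h0 h1 _ hmono hanti).trans ?_)
  have e : ev p (S ∪ R) (fun ω => ind (Ox ⊆ ω)) = s :=
    (pr_subset (hOx.trans subset_union_left)).trans hs
  rw [e]
  exact mul_le_mul_of_nonneg_left hg₀ (hs ▸ prod_nonneg fun e _ => h0 e)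

/-- Among many disjoint seeds it is rare that every open one is bad. -/
theorem no_good_seed {ι : Type*} (h0 : ∀ e, 0 ≤ p e) (h1 : ∀ e, p e ≤ 1)
    {L : Finset (Sym2 W)} (Y : Finset ι) (O : ι → Finset (Sym2 W))
    (Bad : ι → Finset (Sym2 W) → Prop) {s b : ℝ} {K' : ℕ} (hs : 0 < s) (hK : 0 < K')
    (hY : K' ≤ Y.card) (hd : (Y : Set ι).PairwiseDisjoint O) (hL : ∀ x ∈ Y, O x ⊆ L)
    (hp : ∀ x ∈ Y, ∏ e ∈ O x, p e = s)
    (hB : ∀ x ∈ Y, pr p L (fun e => O x ⊆ e ∧ Bad x e) ≤ b * s) :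
    pr p L (fun e => ∀ x ∈ Y, O x ⊆ e → Bad x e) ≤ 2 * b + 4 / (s * K') := by
  have hO : ∀ x ∈ Y, pr p L (fun e => O x ⊆ e) = s := fun x hx =>
    (pr_subset (hL x hx)).trans (hp x hx)
  have hOO : ∀ x ∈ Y, ∀ y ∈ Y, x ≠ y → pr p L (fun e => O x ⊆ e ∧ O y ⊆ e) ≤ s * s := by
    intro x hx y hy hxy
    rw [pr_congr (Q := fun e => O x ⊆ e ∧ O y ⊆ e) (R := fun e => O x ∪ O y ⊆ e)
      fun e _ => union_subset_iff.symm, pr_subset (union_subset (hL x hx) (hL y hy)),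
      prod_union (hd hx hy hxy), hp x hx, hp y hy]
  refine (pr_no_good h0 h1 Y (fun x e => O x ⊆ e) Bad hs (card_pos.1 (hK.trans_le hY)) hO hOO
    hB).trans ?_
  have : 4 / (s * Y.card) ≤ 4 / (s * (K' : ℝ)) :=
    div_le_div_of_nonneg_left (by norm_num) (mul_pos hs (by exact_mod_cast hK))
      (mul_le_mul_of_nonneg_left (by exact_mod_cast hY) hs.le)
  linarith

/-- One hop where the hop event may use the whole tube and the seeds have varying weights. -/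
lemma hop_step_gen_pos (h0 : ∀ e, 0 ≤ p e) (h1 : ∀ e, p e ≤ 1) {T Bl s₀ : Finset (Sym2 W)} (a : W)
    (X : Finset W) (c : W → W) (O : W → Finset (Sym2 W)) {K K' : ℕ} {F : Set W → Prop}
    (hF : ∀ C D, C ⊆ D → F C → F D) {s g ε : ℝ} (hs : 0 < s) (hK' : 0 < K') (hg : 0 < g)
    (hBl : Bl ⊆ T) (hO : ∀ x ∈ X, O x ⊆ T ∧ Disjoint (O x) Bl ∧ s ≤ ∏ e ∈ O x, p e)
    (hsel : ∀ Z ⊆ X, K ≤ Z.card → ∃ Y ⊆ Z, K' ≤ Y.card ∧ (Y : Set W).PairwiseDisjoint O ∧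
      ∀ x ∈ Y, ∀ y ∈ Y, ∏ e ∈ O x, p e = ∏ e ∈ O y, p e)
    (hlink : ∀ x ∈ X, ∀ w, O x ⊆ w → x ∈ cl {a} w → c x ∈ cl {a} w)
    (hfail : ∀ x ∈ X, pr p T (fun e => ¬ F (cl {c x} (O x ∪ e))) ≤ g)
    (hhop : pr p T (fun e => ¬ F (cl {a} (s₀ ∪ e)) ∧ ¬ ∃ Y : Finset W,
      Y ⊆ X ∧ ↑Y ⊆ cl {a} (s₀ ∪ e ∩ Bl) ∧ K ≤ Y.card) ≤ ε) :
    pr p T (fun e => ¬ F (cl {a} (s₀ ∪ e))) ≤
      ε + 3 * Real.sqrt g + 4 / (s * K') := by
  classical
  set r := Real.sqrt g with hr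
  have hr0 : 0 < r := Real.sqrt_pos.2 hg
  set S := X.biUnion O with hS
  set R := T \ S with hR
  have hST : S ⊆ T := biUnion_subset.2 fun x hx => (hO x hx).1
  have hSR : S ∪ R = T := union_sdiff_of_subset hST
  have hdBl : Disjoint Bl S := ((disjoint_biUnion_left _ _ _).2 fun x hx => (hO x hx).2.1).symm
  set Bad : W → Finset (Sym2 W) → Prop :=
    fun x σ => r < pr p R fun e => ¬ F (cl {c x} (σ ∪ e)) with hBad
  have hbad : ∀ x ∈ X, pr p S (fun σ => O x ⊆ σ ∧ Bad x σ) ≤ r * ∏ e ∈ O x, p e := by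
    intro x hx
    have h := bad_seed_le (g := r) h0 h1 (c x) hF disjoint_sdiff (subset_biUnion_of_mem O hx)
      rfl (g₀ := g) (by rw [hSR]; exact hfail x hx)
    refine le_of_mul_le_mul_right (h.trans_eq ?_) hr0
    rw [mul_right_comm, hr, Real.mul_self_sqrt hg.le, mul_comm]
  set Z : Finset (Sym2 W) → Finset W := fun e => X.filter fun x => x ∈ cl {a} (s₀ ∪ e) with hZ
  have hZX : ∀ e, Z e ⊆ X := fun e => filter_subset _ _
  choose Y hYZ hYK hYd hYs using fun (e : Finset (Sym2 W)) (h : K ≤ (Z e).card) =>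
    hsel (Z e) (hZX e) h
  set B : Finset (Sym2 W) → Finset W :=
    fun σ => (X.filter fun x => O x ⊆ σ ∧ ¬ Bad x σ).image c with hB
  set E₁ : Finset (Sym2 W) → Prop :=
    fun ω => ¬ F (cl {a} (s₀ ∪ ω)) ∧ ¬ K ≤ (Z (ω ∩ Bl)).card with hE₁
  set E₂ : Finset (Sym2 W) → Prop := fun ω => ∃ h : K ≤ (Z (ω ∩ Bl)).card,
    ∀ x ∈ Y (ω ∩ Bl) h, O x ⊆ ω ∩ S → Bad x (ω ∩ S) with hE₂
  set E₃ : Finset (Sym2 W) → Prop := fun ω =>
    a ∈ cl (B (ω ∩ S) : Set W) (s₀ ∪ ω) ∧ ¬ F (cl {a} (s₀ ∪ ω)) with hE₃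
  have cover : ∀ ω, ¬ F (cl {a} (s₀ ∪ ω)) → E₁ ω ∨ E₂ ω ∨ E₃ ω := by
    intro ω hω
    by_cases h : K ≤ (Z (ω ∩ Bl)).card
    · by_cases h2 : ∀ x ∈ Y (ω ∩ Bl) h, O x ⊆ ω ∩ S → Bad x (ω ∩ S)
      · exact .inr (.inl ⟨h, h2⟩)
      simp only [not_forall, exists_prop] at h2
      obtain ⟨x, hxY, hxO, hxB⟩ := h2
      obtain ⟨hxX, hxa⟩ := mem_filter.1 (hYZ _ h hxY)
      have hxa' : x ∈ cl {a} (s₀ ∪ ω) :=
        cl_mono subset_rfl (union_subset_union_right inter_subset_left) hxa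
      obtain ⟨a', ha', har⟩ := hlink x hxX _
        ((hxO.trans inter_subset_left).trans subset_union_right) hxa'
      rw [Set.mem_singleton_iff] at ha'
      subst ha'
      exact .inr (.inr ⟨⟨c x, mem_coe.2 (mem_image_of_mem c (mem_filter.2 ⟨hxX, hxO, hxB⟩)),
        har.symm⟩, hω⟩)
    · exact .inl ⟨hω, h⟩
  have b₁ : pr p T E₁ ≤ ε := by
    refine le_trans (pr_mono h0 h1 fun ω _ hω => ?_) hhop
    refine ⟨hω.1, ?_⟩
    rintro ⟨Y', hY', hYc, hK⟩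
    exact hω.2 (hK.trans (card_le_card fun x hx => mem_filter.2 ⟨hY' hx, hYc hx⟩))
  have b₂ : pr p T E₂ ≤ 2 * r + 4 / (s * K') := by
    have hm : pr p T E₂ = pr p (Bl ∪ S) E₂ := by
      rw [pr, pr, ← ev_marginal (U := T) (union_subset hBl hST)]
      refine ev_congr fun ω _ => ind_congr ?_
      have i1 : ω ∩ (Bl ∪ S) ∩ Bl = ω ∩ Bl := by
        rw [inter_assoc, inter_eq_right.2 subset_union_left]
      have i2 : ω ∩ (Bl ∪ S) ∩ S = ω ∩ S := by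
        rw [inter_assoc, inter_eq_right.2 subset_union_right]
      simp only [hE₂, i1, i2]
    rw [hm, pr, ev_split hdBl]
    refine le_of_le_of_eq (ev_mono h0 h1 fun e he => ?_)
      (ev_const (p := p) (U := Bl) (2 * r + 4 / (s * K')))
    have ee : ∀ η, η ⊆ S → (e ∪ η) ∩ Bl = e ∧ (e ∪ η) ∩ S = η := fun η hη =>
      ⟨by rw [union_inter_distrib_right, inter_eq_left.2 he,
          disjoint_iff_inter_eq_empty.1 (disjoint_of_subset_left hη hdBl.symm), union_empty],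
       by rw [union_inter_distrib_right, inter_eq_left.2 hη,
          disjoint_iff_inter_eq_empty.1 (disjoint_of_subset_left he hdBl), empty_union]⟩
    by_cases h : K ≤ (Z e).card
    · obtain ⟨x₀, hx₀⟩ := card_pos.1 (hK'.trans_le (hYK e h))
      have hs' : s ≤ ∏ e ∈ O x₀, p e := (hO x₀ (hZX e (hYZ e h hx₀))).2.2
      refine le_trans (pr_mono h0 h1 fun η hη hh => ?_) (le_trans
        (no_good_seed h0 h1 (Y e h) O Bad (s := ∏ e ∈ O x₀, p e) (hs.trans_le hs') hK' (hYK e h)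
          (hYd e h) (fun x hx => subset_biUnion_of_mem O (hZX e (hYZ e h hx)))
          (fun x hx => hYs e h x hx x₀ hx₀)
          fun x hx => hYs e h x hx x₀ hx₀ ▸ hbad x (hZX e (hYZ e h hx)))
        (add_le_add le_rfl (div_le_div_of_nonneg_left (by norm_num)
          (mul_pos hs (by exact_mod_cast hK'))
          (mul_le_mul_of_nonneg_right hs' (Nat.cast_nonneg K')))))
      simp only [hE₂, (ee η hη).1, (ee η hη).2] at hh
      exact hh.2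
    · refine le_trans (le_of_eq ((ev_congr fun η hη => ind_false ?_).trans (ev_const 0)))
        (by positivity)
      simp only [hE₂, (ee η hη).1]
      exact fun hh => h hh.1
  have b₃ : pr p T E₃ ≤ r := by
    rw [← hSR, pr, ev_split disjoint_sdiff]
    refine le_of_le_of_eq (ev_mono h0 h1 fun σ hσ => ?_) (ev_const (p := p) (U := S) r)
    refine le_trans (pr_mono h0 h1 fun η hη hh => ?_)
      (quenched_le_of_subset (σ₁ := σ) (σ := s₀ ∪ σ) h0 h1 subset_union_right R a (B σ) hF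
        hr0.le fun u hu => ?_)
    · have hS' : (σ ∪ η) ∩ S = σ := by
        rw [union_inter_distrib_right, inter_eq_left.2 hσ, disjoint_iff_inter_eq_empty.1
          (disjoint_of_subset_left hη disjoint_sdiff.symm), union_empty]
      simp only [hE₃, hS', ← union_assoc] at hh
      exact hh
    · obtain ⟨x, hx, rfl⟩ := mem_image.1 hu
      exact not_lt.1 (mem_filter.1 hx).2.2
  have u₁ := pr_or_and (p := p) (U := T) E₁ fun ω => E₂ ω ∨ E₃ ω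
  have u₂ := pr_or_and (p := p) (U := T) E₂ E₃
  have n₁ := pr_nonneg (U := T) h0 h1 fun ω => E₁ ω ∧ (E₂ ω ∨ E₃ ω)
  have n₂ := pr_nonneg (U := T) h0 h1 fun ω => E₂ ω ∧ E₃ ω
  have := pr_mono (U := T) h0 h1 (fun ω _ => cover ω)
  linarith

lemma hop_step_pos (h0 : ∀ e, 0 ≤ p e) (h1 : ∀ e, p e ≤ 1) {T Bl s₀ : Finset (Sym2 W)} (a : W)
    (X : Finset W) (c : W → W) (O : W → Finset (Sym2 W)) {K K' : ℕ} {F : Set W → Prop}
    (hF : ∀ C D, C ⊆ D → F C → F D) {s g ε : ℝ} (hs : 0 < s) (hK' : 0 < K') (hg : 0 < g)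
    (hBl : Bl ⊆ T) (hO : ∀ x ∈ X, O x ⊆ T ∧ Disjoint (O x) Bl ∧ ∏ e ∈ O x, p e = s)
    (hsel : ∀ Z ⊆ X, K ≤ Z.card → ∃ Y ⊆ Z, K' ≤ Y.card ∧ (Y : Set W).PairwiseDisjoint O)
    (hlink : ∀ x ∈ X, ∀ w, O x ⊆ w → x ∈ cl {a} w → c x ∈ cl {a} w)
    (hfail : ∀ x ∈ X, pr p T (fun e => ¬ F (cl {c x} (O x ∪ e))) ≤ g)
    (hhop : pr p Bl (fun e => ¬ ∃ Y : Finset W,
      Y ⊆ X ∧ ↑Y ⊆ cl {a} (s₀ ∪ e) ∧ K ≤ Y.card) ≤ ε) :
    pr p T (fun e => ¬ F (cl {a} (s₀ ∪ e))) ≤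
      ε + 3 * Real.sqrt g + 4 / (s * K') := by
  refine hop_step_gen_pos (K := K) h0 h1 a X c O hF hs hK' hg hBl
    (fun x hx => ⟨(hO x hx).1, (hO x hx).2.1, (hO x hx).2.2.ge⟩) (fun Z hZ hK => ?_) hlink hfail
    (le_trans ?_ hhop)
  · obtain ⟨Y, a1, a2, a3⟩ := hsel Z hZ hK
    exact ⟨Y, a1, a2, a3, fun x hx y hy => by
      rw [(hO x (hZ (a1 hx))).2.2, (hO y (hZ (a1 hy))).2.2]⟩
  · rw [pr, pr, ← ev_marginal (p := p) hBl]
    exact ev_mono h0 h1 fun η _ => ind_mono And.right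

/-- One hop: the failure probability of the future passes back through a ball and a seed layer. -/
theorem hop_step (h0 : ∀ e, 0 ≤ p e) (h1 : ∀ e, p e ≤ 1) {T Bl s₀ : Finset (Sym2 W)} (a : W)
    (X : Finset W) (c : W → W) (O : W → Finset (Sym2 W)) {K K' : ℕ} {F : Set W → Prop}
    (hF : ∀ C D, C ⊆ D → F C → F D) {s g ε : ℝ} (hs : 0 < s) (hK' : 0 < K') (hg : 0 ≤ g)
    (hBl : Bl ⊆ T) (hO : ∀ x ∈ X, O x ⊆ T ∧ Disjoint (O x) Bl ∧ ∏ e ∈ O x, p e = s)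
    (hsel : ∀ Z ⊆ X, K ≤ Z.card → ∃ Y ⊆ Z, K' ≤ Y.card ∧ (Y : Set W).PairwiseDisjoint O)
    (hlink : ∀ x ∈ X, ∀ w, O x ⊆ w → x ∈ cl {a} w → c x ∈ cl {a} w)
    (hfail : ∀ x ∈ X, pr p T (fun e => ¬ F (cl {c x} (O x ∪ e))) ≤ g)
    (hhop : pr p Bl (fun e => ¬ ∃ Y : Finset W,
      Y ⊆ X ∧ ↑Y ⊆ cl {a} (s₀ ∪ e) ∧ K ≤ Y.card) ≤ ε) :
    pr p T (fun e => ¬ F (cl {a} (s₀ ∪ e))) ≤
      ε + 3 * Real.sqrt g + 4 / (s * K') := by
  rcases eq_or_lt_of_le hg with hg0 | hg0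
  · refine le_of_forall_pos_le_add fun η hη => ?_
    have h := hop_step_pos h0 h1 a X c O hF hs hK' (g := (η / 3) ^ 2) (by positivity) hBl hO hsel
      hlink (fun x hx => (hfail x hx).trans (hg0 ▸ by positivity)) hhop
    rw [Real.sqrt_sq (by positivity)] at h
    rw [← hg0, Real.sqrt_zero]
    linarith
  · exact hop_step_pos h0 h1 a X c O hF hs hK' hg0 hBl hO hsel hlink hfail hhop

/-- The generalised hop: the hop event may use the whole tube, seed weights are at least `s`. -/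
theorem hop_step_gen (h0 : ∀ e, 0 ≤ p e) (h1 : ∀ e, p e ≤ 1) {T Bl s₀ : Finset (Sym2 W)} (a : W)
    (X : Finset W) (c : W → W) (O : W → Finset (Sym2 W)) {K K' : ℕ} {F : Set W → Prop}
    (hF : ∀ C D, C ⊆ D → F C → F D) {s g ε : ℝ} (hs : 0 < s) (hK' : 0 < K') (hg : 0 ≤ g)
    (hBl : Bl ⊆ T) (hO : ∀ x ∈ X, O x ⊆ T ∧ Disjoint (O x) Bl ∧ s ≤ ∏ e ∈ O x, p e)
    (hsel : ∀ Z ⊆ X, K ≤ Z.card → ∃ Y ⊆ Z, K' ≤ Y.card ∧ (Y : Set W).PairwiseDisjoint O ∧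
      ∀ x ∈ Y, ∀ y ∈ Y, ∏ e ∈ O x, p e = ∏ e ∈ O y, p e)
    (hlink : ∀ x ∈ X, ∀ w, O x ⊆ w → x ∈ cl {a} w → c x ∈ cl {a} w)
    (hfail : ∀ x ∈ X, pr p T (fun e => ¬ F (cl {c x} (O x ∪ e))) ≤ g)
    (hhop : pr p T (fun e => ¬ F (cl {a} (s₀ ∪ e)) ∧ ¬ ∃ Y : Finset W,
      Y ⊆ X ∧ ↑Y ⊆ cl {a} (s₀ ∪ e ∩ Bl) ∧ K ≤ Y.card) ≤ ε) :
    pr p T (fun e => ¬ F (cl {a} (s₀ ∪ e))) ≤
      ε + 3 * Real.sqrt g + 4 / (s * K') := by
  rcases eq_or_lt_of_le hg with hg0 | hg0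
  · refine le_of_forall_pos_le_add fun η hη => ?_
    have h := hop_step_gen_pos h0 h1 a X c O hF hs hK' (g := (η / 3) ^ 2) (by positivity) hBl hO
      hsel hlink (fun x hx => (hfail x hx).trans (hg0 ▸ by positivity)) hhop
    rw [Real.sqrt_sq (by positivity)] at h
    rw [← hg0, Real.sqrt_zero]
    linarith
  · exact hop_step_gen_pos h0 h1 a X c O hF hs hK' hg0 hBl hO hsel hlink hfail hhop

end Vale.Agent.P151.Red
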