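import Vale.Agent.P151.Reduction.Geom
import Vale.Agent.P151.Reduction.Step

/-!
The steered chain: from every seed of a cell, inside its tube, the next cell is reached at `K`
points with probability close to one.
-/

open Finset

namespace Vale.Agent.P151.Red

open Vale.Agent.P151.Fin
open Vale.Agent.P165 (cl cl_mono cl_step subset_cl)

variable {d : ℕ}

section Seeds

lemma gseq_nonneg {ε δ : ℝ} (hε : 0 ≤ ε) (hδ : 0 ≤ δ) : ∀ j, 0 ≤ gseq ε δ j
  | 0 => hε
  | j + 1 => add_nonneg (gseq_nonneg hε hδ j)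
      (add_nonneg (add_nonneg hε (mul_nonneg (by norm_num) (Real.sqrt_nonneg _))) hδ)

lemma gseq_mono {ε δ : ℝ} (hε : 0 ≤ ε) (hδ : 0 ≤ δ) : Monotone (gseq ε δ) := by
  refine monotone_nat_of_le_succ fun j => ?_
  rw [gseq]
  exact le_add_of_nonneg_right
    (add_nonneg (add_nonneg hε (mul_nonneg (by norm_num) (Real.sqrt_nonneg _))) hδ)

lemma gseq_step {ε δ : ℝ} (hε : 0 ≤ ε) (hδ : 0 ≤ δ) (j : ℕ) :
    ε + 3 * Real.sqrt (gseq ε δ j) + δ ≤ gseq ε δ (j + 1) := by
  rw [gseq]
  linarith [gseq_nonneg hε hδ j]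

lemma cen_apply_self (m : ℕ) (i : Fin d) (σ : ℤˣ) (x : V d) :
    cen m i σ x i = x i + (σ : ℤ) * (m + 1) := move_self _ _ _

lemma cen_apply_ne (m : ℕ) {i j : Fin d} (σ : ℤˣ) (x : V d) (h : j ≠ i) :
    cen m i σ x j = x j := move_of_ne _ _ h

/-- The signs of a hop along `(i, σ)` steering every other coordinate towards `c`. -/
def steer (i : Fin d) (σ : ℤˣ) (b c : V d) : Fin d → ℤˣ := fun j =>
  if j = i then σ else if b j ≤ c j then 1 else -1

lemma steer_self (i : Fin d) (σ : ℤˣ) (b c : V d) : steer i σ b c i = σ := if_pos rfl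

/-- What membership in a steered piece says, coordinate by coordinate. -/
lemma piece_steer {r : ℕ} {i : Fin d} {σ : ℤˣ} {b c x : V d}
    (hx : x ∈ piece r i (steer i σ b c) b) :
    x i = b i + (σ : ℤ) * r ∧ ∀ j, j ≠ i →
      (b j ≤ c j ∧ b j ≤ x j ∧ x j ≤ b j + r) ∨ (c j < b j ∧ x j ≤ b j ∧ b j ≤ x j + r) := by
  classical
  simp only [piece, mem_filter, mem_cube, steer_self] at hx
  obtain ⟨hc, hi, hs⟩ := hx
  refine ⟨?_, fun j hj => ?_⟩
  · rcases Int.units_eq_one_or σ with rfl | rfl <;> simp at hi ⊢ <;> omega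
  · have h1 := hs j
    have h2 := hc j
    simp only [steer, hj, if_false] at h1
    by_cases hle : b j ≤ c j
    · rw [if_pos hle, Units.val_one, one_mul] at h1
      exact .inl ⟨hle, by omega, by omega⟩
    · rw [if_neg hle, Units.val_neg, Units.val_one] at h1
      exact .inr ⟨by omega, by omega, by omega⟩

/-- A seed beyond a facet of a cube avoids the edges of the cube. -/
lemma oEdges_disjoint_cube (m r : ℕ) (i : Fin d) (σ : ℤˣ) {b x : V d}
    (hx : x i = b i + (σ : ℤ) * r) : Disjoint (oEdges m i σ x) (inEdges (cube b r)) := by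
  refine disjoint_left.2 fun e he heb => ?_
  obtain ⟨v, hv, hfar⟩ := oEdges_far he
  have := mem_cube.1 (mem_of_mem_inEdges heb hv) i
  rcases Int.units_eq_one_or σ with rfl | rfl <;> simp at hfar hx <;> omega

/-- A seed lies in the next ball. -/
lemma oEdges_subset_ball {m n : ℕ} (hmn : m + 1 ≤ n) (i : Fin d) (σ : ℤˣ) (x : V d) :
    oEdges m i σ x ⊆ inEdges (cube (cen m i σ x) n) := by
  refine oEdges_subset_inEdges fun v h1 h2 h3 => mem_cube.2 fun j => ?_
  by_cases hj : j = i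
  · subst hj
    rw [cen_apply_self]
    rcases Int.units_eq_one_or σ with rfl | rfl <;> simp at h2 h3 ⊢ <;> omega
  · rw [cen_apply_ne m σ x hj]
    have := h1 j hj
    omega

end Seeds

namespace Geo

variable (G : Geo d)

/-- The failure probability of a seed centred at `b` inside a tube. -/
noncomputable def fail (t : ℝ) (K : ℕ) (z T : ℤ) (σ : ℤˣ) (b : V d) : ℝ :=
  Fin.pr (fun _ => t) (G.tube z T σ) fun η =>
    ¬ Hits (G.gx (z + (σ : ℤ)) (T + 1)) K (cl {b} (seedE G.m b ∪ η))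

variable {t : ℝ} {K K' : ℕ} {ε δ : ℝ}

/-- The last hop. -/
lemma fail_last (h0 : 0 < t) (h1 : t ≤ 1) (hop : Hop d t G.m K G.n ε) (z T : ℤ) (σ : ℤˣ)
    (b : V d) {r : ℕ} (hr : G.n ≤ r) (hr' : r ≤ 4 * G.n) (i : Fin d) (s : Fin d → ℤˣ)
    (hball : cube b r ⊆ G.rectA z T σ ∪ G.rectB z T σ)
    (hpiece : piece r i s b ⊆ G.gx (z + (σ : ℤ)) (T + 1)) : G.fail t K z T σ b ≤ ε := by
  refine le_trans ?_ (hop r hr hr' i s b)
  rw [fail, hopFail, Fin.pr, Fin.pr,
    ← ev_marginal (U := G.tube z T σ) (U₁ := inEdges (cube b r)) (inEdges_mono hball)]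
  exact ev_mono (fun _ => h0.le) (fun _ => h1) fun η _ => ind_mono fun hn hh =>
    hn (hits_mono (cl_mono subset_rfl (union_subset_union_right inter_subset_left))
      (hits_subset hpiece hh))

/-- One hop of radius `n`. -/
lemma fail_hop (h0 : 0 < t) (h1 : t ≤ 1) (hop : Hop d t G.m K G.n ε) (hK : K' * sepC d G.m ≤ K)
    (hK' : 0 < K') (hdel : 4 / (t ^ (oEdges G.m G.i₁ 1 0).card * K') ≤ δ) (z T : ℤ) (σ : ℤˣ)
    (b : V d) (i : Fin d) (s : Fin d → ℤˣ) {g : ℝ} (hg : 0 ≤ g)
    (hball : cube b G.n ⊆ G.rectA z T σ ∪ G.rectB z T σ)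
    (hnext : ∀ x ∈ piece G.n i s b,
      cube (cen G.m i (s i) x) G.n ⊆ G.rectA z T σ ∪ G.rectB z T σ ∧
        G.fail t K z T σ (cen G.m i (s i) x) ≤ g) :
    G.fail t K z T σ b ≤ ε + 3 * Real.sqrt g + δ := by
  have hm := G.hm
  refine le_trans (hop_step (p := fun _ => t) (fun _ => h0.le) (fun _ => h1) b
    (piece G.n i s b) (cen G.m i (s i)) (oEdges G.m i (s i)) (Bl := inEdges (cube b G.n))
    (s₀ := seedE G.m b) (K := K) (F := Hits (G.gx (z + (σ : ℤ)) (T + 1)) K)
    (fun C D h => hits_mono h) (s := t ^ (oEdges G.m G.i₁ 1 0).card) (ε := ε)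
    (pow_pos h0 _) hK' hg (inEdges_mono hball) (fun x hx => ⟨?_, ?_, ?_⟩) (fun Z _ hZ => ?_)
    (fun x _ w hw hxa => mem_cl_cen hw hxa) (fun x hx => ?_)
    (hop G.n le_rfl (by omega) i s b)) (by linarith)
  · exact (oEdges_subset_ball (by omega) i (s i) x).trans (inEdges_mono (hnext x hx).1)
  · classical
    simp only [piece, mem_filter] at hx
    refine oEdges_disjoint_cube _ _ _ _ ?_
    have := hx.2.1
    rcases Int.units_eq_one_or (s i) with h | h <;> rw [h] at this ⊢ <;> simp at this ⊢ <;> omega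
  · rw [prod_const, oEdges_card G.m i G.i₁ (s i) 1 x 0]
  · obtain ⟨Y, hYZ, hcard, hdis⟩ := exists_separated G.m i (s i) Z
    refine ⟨Y, hYZ, ?_, hdis⟩
    exact Nat.le_of_mul_le_mul_right (hK.trans (hZ.trans hcard))
      (by unfold sepC; positivity)
  · exact le_trans (pr_mono (fun _ => h0.le) (fun _ => h1) fun η _ hn hh => hn (hits_mono
      (cl_mono subset_rfl (union_subset_union_left (seedE_subset_oEdges _ _ _ _))) hh))
      (hnext x hx).2

section Phases

variable (h0 : 0 < t) (h1 : t ≤ 1) (he : 0 ≤ ε) (hop : Hop d t G.m K G.n ε)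
  (hK : K' * sepC d G.m ≤ K) (hK' : 0 < K')
  (hdel : 4 / (t ^ (oEdges G.m G.i₁ 1 0).card * K') ≤ δ) (z T : ℤ) (σ : ℤˣ)

/-- The states of the chain above the target position. -/
def InB (b : V d) : Prop :=
  T * G.L - G.n ≤ b G.i₁ ∧ b G.i₁ + (G.n : ℤ) ≤ (T + 1) * G.L - (G.m + 1) ∧
    ∀ j, j ≠ G.i₁ → G.ctr (z + (σ : ℤ)) T j - (4 * G.n : ℕ) ≤ b j ∧
      b j ≤ G.ctr (z + (σ : ℤ)) T j + (4 * G.n : ℕ)

/-- The states of the chain near the source time. -/
def InA (b : V d) : Prop :=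
  (T * G.L - G.n ≤ b G.i₁ ∧ b G.i₁ ≤ T * G.L + G.n) ∧
    (-((4 * G.n : ℕ) : ℤ) ≤ (σ : ℤ) * ((z + (σ : ℤ)) * G.L - b G.i₂) ∧
      (σ : ℤ) * ((z + (σ : ℤ)) * G.L - b G.i₂) ≤ G.L + (4 * G.n : ℕ)) ∧
    ∀ j, j ≠ G.i₁ → j ≠ G.i₂ → -((4 * G.n : ℕ) : ℤ) ≤ b j ∧ b j ≤ (4 * G.n : ℕ)

lemma cube_inB {b : V d} (hb : G.InB z T σ b) {r : ℕ} (hr : r ≤ 4 * G.n)
    (hr' : b G.i₁ + (r : ℤ) ≤ (T + 1) * G.L - (G.m + 1)) :
    cube b r ⊆ G.rectA z T σ ∪ G.rectB z T σ := by
  refine fun y hy => mem_union_right _ (mem_rect.2 fun j => ?_)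
  obtain ⟨a1, -, a3⟩ := hb
  have := mem_cube.1 hy j
  by_cases hj : j = G.i₁
  · subst hj
    simp only [if_true, A]
    omega
  · have := a3 j hj
    simp only [hj, if_false, A]
    omega

lemma cube_inA {b : V d} (hb : G.InA z T σ b) :
    cube b G.n ⊆ G.rectA z T σ ∪ G.rectB z T σ := by
  refine fun y hy => mem_union_left _ (mem_rect.2 fun j => ?_)
  obtain ⟨a1, a2, a3⟩ := hb
  have := mem_cube.1 hy j
  by_cases hj : j = G.i₁
  · subst hj
    simp only [if_true, A]
    omega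
  by_cases hj2 : j = G.i₂
  · subst hj2
    simp only [G.ne.symm, if_true, if_false, A]
    rw [add_mul] at a2 ⊢
    rcases Int.units_eq_one_or σ with rfl | rfl <;> simp at a2 ⊢ <;> omega
  · have := a3 j hj hj2
    simp only [hj, hj2, if_false, A]
    omega

include h0 h1 he hop hK hK' hdel in
/-- Hops along the time coordinate. -/
lemma fail_inB : ∀ (j : ℕ) (b : V d), G.InB z T σ b →
    (T + 1) * G.L - (G.m + 1) - b G.i₁ ≤ (4 * G.n : ℕ) + (j : ℤ) * (G.n + G.m + 1) →
      G.fail t K z T σ b ≤ gseq ε δ j := by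
  have hδ : 0 ≤ δ := le_trans (by positivity) hdel
  have hm := G.hm
  intro j
  induction j using Nat.strong_induction_on with
  | _ j ih =>
    intro b hb hdist
    have ⟨a1, a2, a3⟩ := hb
    by_cases hD : (T + 1) * G.L - (G.m + 1) - b G.i₁ ≤ (4 * G.n : ℕ)
    · set r := ((T + 1) * G.L - (G.m + 1) - b G.i₁).toNat with hr
      refine (G.fail_last h0 h1 hop z T σ b (r := r) (by omega) (by omega) G.i₁
        (steer G.i₁ 1 b (G.ctr (z + (σ : ℤ)) T)) (G.cube_inB z T σ hb (by omega) (by omega)) ?_).trans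
        (gseq_mono he hδ (Nat.zero_le j))
      intro x hx
      obtain ⟨x1, xj⟩ := piece_steer hx
      refine mem_rect.2 fun k => ?_
      by_cases hk : k = G.i₁
      · subst hk
        simp only [if_true]
        rw [Units.val_one, one_mul] at x1
        omega
      · have e : G.ctr (z + (σ : ℤ)) (T + 1) k = G.ctr (z + (σ : ℤ)) T k :=
          G.ctr_time _ _ _ hk
        have := a3 k hk
        have := xj k hk
        simp only [hk, if_false, e]
        omega
    · obtain _ | j := j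
      · simp at hdist; omega
      rw [Nat.cast_succ, add_one_mul (j : ℤ)] at hdist
      have key : ∀ x ∈ piece G.n G.i₁ (steer G.i₁ 1 b (G.ctr (z + (σ : ℤ)) T)) b,
          G.InB z T σ (cen G.m G.i₁ 1 x) ∧
            cen G.m G.i₁ 1 x G.i₁ = b G.i₁ + (G.n + G.m + 1) := by
        intro x hx
        obtain ⟨x1, xj⟩ := piece_steer hx
        rw [Units.val_one, one_mul] at x1
        have e : cen G.m G.i₁ 1 x G.i₁ = b G.i₁ + (G.n + G.m + 1) := by
          rw [cen_apply_self, x1, Units.val_one, one_mul]; ring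
        refine ⟨⟨by omega, by omega, fun k hk => ?_⟩, e⟩
        rw [cen_apply_ne _ _ _ hk]
        have := a3 k hk
        have := xj k hk
        omega
      refine (G.fail_hop h0 h1 hop hK hK' hdel z T σ b G.i₁ (steer G.i₁ 1 b (G.ctr (z + (σ : ℤ)) T))
        (gseq_nonneg he hδ j) (G.cube_inB z T σ hb (by omega) a2) fun x hx => ?_).trans
        (gseq_step he hδ j)
      rw [steer_self]
      obtain ⟨hB, e⟩ := key x hx
      exact ⟨G.cube_inB z T σ hB (by omega) hB.2.1,
        ih j (by omega) _ hB (by rw [e]; omega)⟩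

include h0 h1 he hop hK hK' hdel in
/-- Hops along the space coordinate. -/
lemma fail_inA : ∀ (j : ℕ) (b : V d), G.InA z T σ b →
    (σ : ℤ) * ((z + (σ : ℤ)) * G.L - b G.i₂) ≤ (4 * G.n : ℕ) + (j : ℤ) * (G.n + G.m + 1) →
      G.fail t K z T σ b ≤ gseq ε δ (j + (G.ell + 2)) := by
  have hδ : 0 ≤ δ := le_trans (by positivity) hdel
  have hm := G.hm
  have hL := G.forty_n_le_L
  have hL' := G.L_eq
  intro j
  induction j using Nat.strong_induction_on with
  | _ j ih =>
    intro b hb hdist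
    have ⟨a1, a2, a3⟩ := hb
    by_cases hD : (σ : ℤ) * ((z + (σ : ℤ)) * G.L - b G.i₂) ≤ (4 * G.n : ℕ)
    · have hB : G.InB z T σ b := by
        refine ⟨by omega, by rw [add_mul]; omega, fun k hk => ?_⟩
        by_cases hk2 : k = G.i₂
        · subst hk2
          rw [G.ctr_i₂]
          rcases Int.units_eq_one_or σ with rfl | rfl <;> simp at a2 hD ⊢ <;> omega
        · rw [G.ctr_of_ne _ _ hk hk2]
          have := a3 k hk hk2
          omega
      refine le_trans (G.fail_inB h0 h1 he hop hK hK' hdel z T σ (G.ell + 2) b hB ?_)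
        (gseq_mono he hδ (Nat.le_add_left _ _))
      have := a1.1
      push_cast
      nlinarith
    · obtain _ | j := j
      · simp at hdist; omega
      rw [Nat.cast_succ, add_one_mul (j : ℤ)] at hdist
      set c := Function.update (0 : V d) G.i₁ (T * G.L) with hc
      have key : ∀ x ∈ piece G.n G.i₂ (steer G.i₂ σ b c) b,
          G.InA z T σ (cen G.m G.i₂ σ x) ∧
            (σ : ℤ) * ((z + (σ : ℤ)) * G.L - cen G.m G.i₂ σ x G.i₂) =
              (σ : ℤ) * ((z + (σ : ℤ)) * G.L - b G.i₂) - (G.n + G.m + 1) := by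
        intro x hx
        obtain ⟨x1, xj⟩ := piece_steer hx
        have e : (σ : ℤ) * ((z + (σ : ℤ)) * G.L - cen G.m G.i₂ σ x G.i₂) =
            (σ : ℤ) * ((z + (σ : ℤ)) * G.L - b G.i₂) - (G.n + G.m + 1) := by
          rw [cen_apply_self, x1]
          rcases Int.units_eq_one_or σ with rfl | rfl <;> simp <;> ring
        refine ⟨⟨?_, by rw [e]; omega, fun k hk hk2 => ?_⟩, e⟩
        · rw [cen_apply_ne _ _ _ G.ne]
          have := xj G.i₁ G.ne
          simp only [hc, Function.update_self] at this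
          omega
        · rw [cen_apply_ne _ _ _ hk2]
          have := a3 k hk hk2
          have := xj k hk2
          simp only [hc, Function.update_of_ne hk, Pi.zero_apply] at this
          omega
      refine (G.fail_hop h0 h1 hop hK hK' hdel z T σ b G.i₂ (steer G.i₂ σ b c)
        (gseq_nonneg he hδ (j + (G.ell + 2))) (G.cube_inA z T σ hb) fun x hx => ?_).trans ?_
      · rw [steer_self]
        obtain ⟨hA, e⟩ := key x hx
        exact ⟨G.cube_inA z T σ hA, ih j (by omega) _ hA (by rw [e]; omega)⟩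
      · refine (gseq_step he hδ _).trans (le_of_eq ?_)
        congr 1
        omega

end Phases

/-- The steered chain. -/
theorem _root_.Vale.Agent.P151.Red.chain (G : Geo d) {t : ℝ} {K K' : ℕ} {ε δ : ℝ} (h0 : 0 < t)
    (h1 : t ≤ 1) (he : 0 ≤ ε) (hop : Hop d t G.m K G.n ε) (hK : K' * sepC d G.m ≤ K)
    (hK' : 0 < K') (hdel : 4 / (t ^ (oEdges G.m G.i₁ 1 0).card * K') ≤ δ) :
    ∀ z T : ℤ, ∀ σ : ℤˣ, ∀ x ∈ G.gx z T,
      Fin.pr (fun _ => t) (G.tube z T σ) (fun η => ¬ Hits (G.gx (z + (σ : ℤ)) (T + 1)) K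
        (cl {cen G.m G.i₁ 1 x} (oEdges G.m G.i₁ 1 x ∪ η))) ≤ gseq ε δ (2 * G.ell + 4) := by
  intro z T σ x hx
  have hδ : 0 ≤ δ := le_trans (by positivity) hdel
  have hL := G.forty_n_le_L
  have hL' := G.L_eq
  have hm := G.hm
  set b := cen G.m G.i₁ 1 x with hb
  have hx' : ∀ j, _ := mem_rect.1 hx
  have b1 : b G.i₁ = T * G.L := by
    have := hx' G.i₁
    simp only [if_true] at this
    rw [hb, cen_apply_self, Units.val_one, one_mul]
    omega
  have b2 : -((4 * G.n : ℕ) : ℤ) ≤ b G.i₂ - z * G.L ∧ b G.i₂ - z * G.L ≤ (4 * G.n : ℕ) := by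
    have := hx' G.i₂
    simp only [G.ne.symm, if_false, G.ctr_i₂] at this
    rw [hb, cen_apply_ne _ _ _ G.ne.symm]
    omega
  have hA : G.InA z T σ b := by
    refine ⟨by omega, ?_, fun j hj hj2 => ?_⟩
    · rw [add_mul]
      rcases Int.units_eq_one_or σ with rfl | rfl <;> simp at b2 ⊢ <;> omega
    · have := hx' j
      simp only [hj, if_false, G.ctr_of_ne _ _ hj hj2] at this
      rw [hb, cen_apply_ne _ _ _ hj]
      omega
  refine le_trans (le_trans (pr_mono (fun _ => h0.le) (fun _ => h1) fun η _ hn hh => hn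
    (hits_mono (cl_mono subset_rfl (union_subset_union_left (seedE_subset_oEdges _ _ _ _))) hh))
    (G.fail_inA h0 h1 he hop hK hK' hdel z T σ (G.ell + 1) b hA ?_))
    (gseq_mono he hδ (by omega))
  have := hA.2.1.2
  push_cast at this ⊢
  nlinarith

end Geo

end Vale.Agent.P151.Red
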