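import Vale.Agent.P151.KN.Uniform

/-!
The connection inequality with a quenched open set, and products of such bounds over disjoint
regions: the estimate that replaces sprinkling.
-/

open Finset

namespace Vale.Agent.P151.Red

open Vale.Agent.P151.Fin
open P165 (cl cl_mono)

section Product

variable {α : Type*} [DecidableEq α] {p : α → ℝ} {U : Finset α} {ι : Type*}

lemma ev_congr_weight {q : α → ℝ} (h : ∀ e ∈ U, p e = q e) (f : Finset α → ℝ) :
    ev p U f = ev q U f := by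
  refine sum_congr rfl fun S hS => ?_
  have e1 : ∏ e ∈ S, p e = ∏ e ∈ S, q e :=
    prod_congr rfl fun e he => h e (mem_powerset.1 hS he)
  have e2 : ∏ e ∈ U \ S, (1 - p e) = ∏ e ∈ U \ S, (1 - q e) :=
    prod_congr rfl fun e he => by rw [h e (mem_sdiff.1 he).1]
  rw [wt, wt, e1, e2]

lemma ev_one (h : ∀ e ∈ U, p e = 1) (f : Finset α → ℝ) : ev p U f = f U := by
  induction U using Finset.induction_on generalizing f with
  | empty => exact ev_empty f
  | insert a U ha ih =>
    rw [ev_insert ha, h a (mem_insert_self _ _), ih fun e he => h e (mem_insert_of_mem he)]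
    ring

/-- The open set `σ` added to a sample is the sample with `σ` made certain. -/
lemma ev_contract (σ R : Finset α) (f : Finset α → ℝ) :
    ev (fun e => if e ∈ σ then 1 else p e) (σ ∪ R) f = ev p R fun η => f (σ ∪ η) := by
  have hu : σ ∪ R = σ ∪ R \ σ := union_sdiff_self_eq_union.symm
  rw [hu, ev_split disjoint_sdiff, ev_one fun e he => if_pos he,
    ev_congr_weight (q := p) (U := R \ σ) fun e he => if_neg (mem_sdiff.1 he).2,
    ← ev_marginal (U := R) sdiff_subset]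
  refine ev_congr fun η hη => congrArg f ?_
  ext x
  simp only [mem_union, mem_inter, mem_sdiff]
  have := @hη x
  tauto

/-- Events of disjoint regions are independent. -/
lemma pr_prod (I : Finset ι) (R : ι → Finset α) (hRR : (I : Set ι).PairwiseDisjoint R)
    (Q : ι → Finset α → Prop) :
    pr p (I.biUnion R) (fun η => ∀ i ∈ I, Q i (η ∩ R i)) = ∏ i ∈ I, pr p (R i) (Q i) := by
  classical
  induction I using Finset.induction_on with
  | empty =>
    rw [biUnion_empty, prod_empty, pr, ev_empty, ind_true]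
    simp
  | insert j I hj ih =>
    rw [biUnion_insert, prod_insert hj, ← ih (hRR.subset (by simp))]
    have hd : ∀ i ∈ I, Disjoint (R j) (R i) := fun i hi => hRR (mem_insert_self _ _)
      (mem_insert_of_mem hi) fun h => hj (h ▸ hi)
    rw [pr, ev_split ((disjoint_biUnion_right _ _ _).2 hd), pr, mul_comm, ← ev_mul_left]
    refine ev_congr fun A hA => ?_
    rw [mul_comm, pr, ← ev_mul_left]
    refine ev_congr fun B hB => ?_
    rw [← ind_and]
    refine ind_congr ?_
    have hj' : (A ∪ B) ∩ R j = A := by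
      refine subset_antisymm (fun x hx => ?_) (subset_inter subset_union_left hA)
      rw [mem_inter, mem_union] at hx
      refine hx.1.resolve_right fun hB' => ?_
      obtain ⟨i, hi, hxi⟩ := mem_biUnion.1 (hB hB')
      exact disjoint_left.1 (hd i hi) hx.2 hxi
    have hi' : ∀ i ∈ I, (A ∪ B) ∩ R i = B ∩ R i := fun i hi => by
      rw [union_inter_distrib_right,
        disjoint_iff_inter_eq_empty.1 (disjoint_of_subset_left hA (hd i hi)), empty_union]
    simp only [forall_mem_insert, hj']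
    exact and_congr_right fun _ => forall₂_congr fun i hi => by rw [hi' i hi]

/-- Conditional bounds multiply over disjoint regions with a common revealed part. -/
theorem pr_prod_le (h0 : ∀ e, 0 ≤ p e) (h1 : ∀ e, p e ≤ 1) (I : Finset ι) (S : Finset α)
    (R : ι → Finset α) (hSU : S ⊆ U) (hRU : ∀ i ∈ I, R i ⊆ U)
    (hSR : ∀ i ∈ I, Disjoint S (R i)) (hRR : (I : Set ι).PairwiseDisjoint R)
    (E : Finset α → Prop) (A : ι → Finset α → Prop) (g : ι → ℝ)
    (h : ∀ σ, σ ⊆ S → E σ → ∀ i ∈ I, pr p (R i) (fun η => A i (σ ∪ η)) ≤ g i) :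
    pr p U (fun ω => E (ω ∩ S) ∧ ∀ i ∈ I, A i (ω ∩ (S ∪ R i))) ≤
      pr p S E * ∏ i ∈ I, g i := by
  classical
  have hsub : S ∪ I.biUnion R ⊆ U := union_subset hSU (biUnion_subset.2 hRU)
  have hm : pr p U (fun ω => E (ω ∩ S) ∧ ∀ i ∈ I, A i (ω ∩ (S ∪ R i))) =
      pr p (S ∪ I.biUnion R) (fun ω => E (ω ∩ S) ∧ ∀ i ∈ I, A i (ω ∩ (S ∪ R i))) := by
    rw [pr, pr, ← ev_marginal hsub]
    refine ev_congr fun ω _ => ind_congr ?_
    rw [inter_assoc, inter_eq_right.2 subset_union_left]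
    refine and_congr_right fun _ => forall₂_congr fun i hi => ?_
    rw [inter_assoc, inter_eq_right.2
      (union_subset_union_right (subset_biUnion_of_mem R hi))]
  rw [hm, pr, ev_split ((disjoint_biUnion_right _ _ _).2 hSR), pr, mul_comm, ← ev_mul_left]
  refine ev_mono h0 h1 fun σ hσ => ?_
  by_cases hE : E σ
  · rw [ind_true hE, mul_one]
    refine le_trans (le_of_eq ?_) (prod_le_prod (fun i _ => pr_nonneg h0 h1 _) (h σ hσ hE))
    rw [← pr_prod I R hRR]
    refine ev_congr fun η hη => ind_congr ?_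
    have hS : (σ ∪ η) ∩ S = σ := by
      refine subset_antisymm (fun x hx => ?_) (subset_inter subset_union_left hσ)
      rw [mem_inter, mem_union] at hx
      refine hx.1.resolve_right fun hη' => ?_
      obtain ⟨i, hi, hxi⟩ := mem_biUnion.1 (hη hη')
      exact disjoint_left.1 (hSR i hi) hx.2 hxi
    rw [hS, and_iff_right hE]
    refine forall₂_congr fun i _ => ?_
    rw [inter_union_distrib_left, hS, union_inter_distrib_right, ← union_assoc,
      union_eq_left.2 inter_subset_left]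
  · rw [ind_false hE, mul_zero]
    refine ((ev_congr fun η hη => ?_).trans (ev_const 0)).le
    refine ind_false fun hh => hE ?_
    have hS : (σ ∪ η) ∩ S = σ := by
      refine subset_antisymm (fun x hx => ?_) (subset_inter subset_union_left hσ)
      rw [mem_inter, mem_union] at hx
      refine hx.1.resolve_right fun hη' => ?_
      obtain ⟨i, hi, hxi⟩ := mem_biUnion.1 (hη hη')
      exact disjoint_left.1 (hSR i hi) hx.2 hxi
    exact hS ▸ hh.1

/-- Layered product bound: the events of the last time are bounded given everything before it. -/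
theorem pr_layers_le (h0 : ∀ e, 0 ≤ p e) (h1 : ∀ e, p e ≤ 1) (τ : ι → ℕ) (S : ℕ → Finset α)
    (S₀ : Finset α) (R : ι → Finset α) (E : Finset α → Prop) (A : ι → Finset α → Prop) {h : ℝ}
    (hh : 0 ≤ h) (hU : S₀ ⊆ U) (I : Finset ι) (hSU : ∀ i ∈ I, S (τ i) ⊆ U)
    (hRU : ∀ i ∈ I, R i ⊆ U) (h₀ : ∀ i ∈ I, S₀ ⊆ S (τ i))
    (hSR : ∀ i ∈ I, Disjoint (S (τ i)) (R i))
    (hRR : ∀ i ∈ I, ∀ j ∈ I, i ≠ j → τ i = τ j → Disjoint (R i) (R j))
    (hnest : ∀ i ∈ I, ∀ j ∈ I, τ i < τ j → S (τ i) ∪ R i ⊆ S (τ j))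
    (hA : ∀ i ∈ I, ∀ σ, σ ⊆ S (τ i) → E (σ ∩ S₀) →
      pr p (R i) (fun η => A i (σ ∪ η)) ≤ h) :
    pr p U (fun ω => E (ω ∩ S₀) ∧ ∀ i ∈ I, A i (ω ∩ (S (τ i) ∪ R i))) ≤
      pr p S₀ E * h ^ I.card := by
  classical
  induction I using Finset.strongInduction with
  | H I ih =>
    rcases I.eq_empty_or_nonempty with rfl | hne
    · rw [card_empty, pow_zero, mul_one, pr, pr, ← ev_marginal hU]
      exact le_of_eq (ev_congr fun ω _ => ind_congr (by simp))
    obtain ⟨i₀, hi₀, hmax⟩ := exists_max_image I τ hne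
    set t := τ i₀
    set I₁ := I.filter fun i => τ i = t
    set I₀ := I.filter fun i => ¬ τ i = t
    have hlt : I₀ ⊂ I := filter_ssubset.2 ⟨i₀, hi₀, by simp [t]⟩
    have m₀ : ∀ i ∈ I₀, i ∈ I := fun i hi => (mem_filter.1 hi).1
    have m₁ : ∀ i ∈ I₁, i ∈ I := fun i hi => (mem_filter.1 hi).1
    have e₁ : ∀ i ∈ I₁, τ i = t := fun i hi => (mem_filter.1 hi).2
    have l₀ : ∀ i ∈ I₀, S (τ i) ∪ R i ⊆ S t := fun i hi => hnest i (m₀ i hi) i₀ hi₀
      (lt_of_le_of_ne (hmax i (m₀ i hi)) (mem_filter.1 hi).2)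
    set E' : Finset α → Prop := fun σ => E (σ ∩ S₀) ∧ ∀ i ∈ I₀, A i (σ ∩ (S (τ i) ∪ R i))
      with hE'
    have key : ∀ ω, E' (ω ∩ S t) ↔
        E (ω ∩ S₀) ∧ ∀ i ∈ I₀, A i (ω ∩ (S (τ i) ∪ R i)) := fun ω => by
      simp only [hE']
      have a0 : ω ∩ S t ∩ S₀ = ω ∩ S₀ := by
        rw [inter_assoc, inter_eq_right.2 (h₀ i₀ hi₀)]
      rw [a0]
      refine and_congr_right fun _ => forall₂_congr fun i hi => ?_
      rw [inter_assoc, inter_eq_right.2 (l₀ i hi)]
    have step := pr_prod_le h0 h1 I₁ (S t) R (hSU i₀ hi₀) (fun i hi => hRU i (m₁ i hi))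
      (fun i hi => e₁ i hi ▸ hSR i (m₁ i hi))
      (fun i hi j hj hij => hRR i (m₁ i hi) j (m₁ j hj) hij ((e₁ i hi).trans (e₁ j hj).symm))
      E' A (fun _ => h) fun σ hσ hE i hi => hA i (m₁ i hi) σ (by rwa [e₁ i hi]) hE.1
    have mar : pr p (S t) E' = pr p U fun ω => E' (ω ∩ S t) :=
      (ev_marginal (hSU i₀ hi₀) _).symm
    rw [prod_const, mar, pr_congr (Q := fun ω => E' (ω ∩ S t)) fun ω _ => key ω] at step
    have rest := ih I₀ hlt (fun i hi => hSU i (m₀ i hi)) (fun i hi => hRU i (m₀ i hi))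
      (fun i hi => h₀ i (m₀ i hi)) (fun i hi => hSR i (m₀ i hi))
      (fun i hi j hj => hRR i (m₀ i hi) j (m₀ j hj))
      (fun i hi j hj => hnest i (m₀ i hi) j (m₀ j hj)) fun i hi => hA i (m₀ i hi)
    have hc : I₀.card + I₁.card = I.card := by
      rw [add_comm]; exact card_filter_add_card_filter_not _
    refine le_trans ?_ (step.trans (le_trans (mul_le_mul_of_nonneg_right rest (pow_nonneg hh _))
      (le_of_eq (by rw [mul_assoc, ← pow_add, hc]))))
    refine pr_mono h0 h1 fun ω _ hω => ⟨(key ω).2 ⟨hω.1, fun i hi => hω.2 i (m₀ i hi)⟩, ?_⟩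
    intro i hi
    rw [← e₁ i hi]
    exact hω.2 i (m₁ i hi)

/-- Markov's inequality for a quenched probability. -/
theorem pr_quenched_markov (h0 : ∀ e, 0 ≤ p e) (h1 : ∀ e, p e ≤ 1) {S R : Finset α}
    (hd : Disjoint S R) (E Q : Finset α → Prop) (g : ℝ) :
    pr p S (fun σ => E σ ∧ g < pr p R fun η => Q (σ ∪ η)) * g ≤
      pr p (S ∪ R) fun ω => E (ω ∩ S) ∧ Q ω := by
  rw [pr, pr, ev_split hd, mul_comm, ← ev_mul_left]
  refine ev_mono h0 h1 fun σ hσ => ?_
  have hS : ∀ η, η ⊆ R → (σ ∪ η) ∩ S = σ := fun η hη => by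
    rw [union_inter_distrib_right, inter_eq_left.2 hσ,
      disjoint_iff_inter_eq_empty.1 (disjoint_of_subset_left hη hd.symm), union_empty]
  by_cases hg : E σ ∧ g < pr p R fun η => Q (σ ∪ η)
  · rw [ind_true hg, mul_one]
    refine hg.2.le.trans (le_of_eq (ev_congr fun η hη => ind_congr ?_))
    rw [hS η hη, and_iff_right hg.1]
  · rw [ind_false hg, mul_zero]
    exact ev_nonneg h0 h1 fun η _ => ind_nonneg _

/-- All edges of a given set are open. -/
lemma pr_subset {X : Finset α} (hX : X ⊆ U) : pr p U (fun ω => X ⊆ ω) = ∏ e ∈ X, p e := by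
  have h : pr p U (fun ω => X ⊆ ω) = pr p X fun η => X ⊆ η := by
    rw [pr, pr, ← ev_marginal hX]
    exact ev_congr fun ω _ => ind_congr (by simp [subset_inter_iff])
  rw [h, pr, ev, sum_eq_single X]
  · rw [ind_true (subset_refl X), mul_one]; simp [wt]
  · intro η hη hne
    rw [ind_false fun hh => hne (subset_antisymm (mem_powerset.1 hη) hh), mul_zero]
  · simp

/-- Many independent seeds, few of them bad: rarely are all open ones bad. -/
theorem pr_no_good (h0 : ∀ e, 0 ≤ p e) (h1 : ∀ e, p e ≤ 1) (I : Finset ι)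
    (O B : ι → Finset α → Prop) {s b : ℝ} (hs : 0 < s) (hI : I.Nonempty)
    (hO : ∀ i ∈ I, pr p U (O i) = s)
    (hOO : ∀ i ∈ I, ∀ j ∈ I, i ≠ j → pr p U (fun ω => O i ω ∧ O j ω) ≤ s * s)
    (hB : ∀ i ∈ I, pr p U (fun ω => O i ω ∧ B i ω) ≤ b * s) :
    pr p U (fun ω => ∀ i ∈ I, O i ω → B i ω) ≤ 2 * b + 4 / (s * I.card) := by
  classical
  set μ := s * I.card with hμ
  have hμ0 : 0 < μ := mul_pos hs (by exact_mod_cast hI.card_pos)
  set X := fun ω => ∑ i ∈ I, ind (O i ω) with hX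
  set Y := fun ω => ∑ i ∈ I, ind (O i ω ∧ B i ω) with hY
  have pw : ∀ ω, ind (∀ i ∈ I, O i ω → B i ω) ≤
      2 / μ * Y ω + 4 / μ ^ 2 * (X ω * X ω - 2 * μ * X ω + μ ^ 2) := by
    intro ω
    have hYn : 0 ≤ Y ω := sum_nonneg fun i _ => ind_nonneg _
    have hsq : 0 ≤ X ω * X ω - 2 * μ * X ω + μ ^ 2 := by nlinarith [sq_nonneg (X ω - μ)]
    have n1 : 0 ≤ 2 / μ * Y ω := by positivity
    have n2 : 0 ≤ 4 / μ ^ 2 * (X ω * X ω - 2 * μ * X ω + μ ^ 2) :=
      mul_nonneg (by positivity) hsq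
    by_cases hD : ∀ i ∈ I, O i ω → B i ω
    · rw [ind_true hD]
      have hXY : Y ω = X ω := sum_congr rfl fun i hi =>
        ind_congr ⟨And.left, fun hh => ⟨hh, hD i hi hh⟩⟩
      rcases le_total (μ / 2) (X ω) with hc | hc
      · have : 1 ≤ 2 / μ * Y ω := by
          rw [hXY, div_mul_eq_mul_div, le_div_iff₀ hμ0]; linarith
        linarith
      · have : 1 ≤ 4 / μ ^ 2 * (X ω * X ω - 2 * μ * X ω + μ ^ 2) := by
          rw [div_mul_eq_mul_div, le_div_iff₀ (by positivity)]
          nlinarith [mul_le_mul (show μ / 2 ≤ μ - X ω by linarith)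
            (show μ / 2 ≤ μ - X ω by linarith) (by positivity) (by linarith)]
        linarith
    · rw [ind_false hD]; linarith
  have eX : ev p U X = μ := by
    rw [hX, ev_sum]
    refine (sum_congr rfl hO).trans ?_
    rw [sum_const, nsmul_eq_mul, hμ, mul_comm]
  have eY : ev p U Y ≤ b * μ := by
    rw [hY, ev_sum]
    refine (sum_le_sum hB).trans_eq ?_
    rw [sum_const, nsmul_eq_mul, hμ]; ring
  have eXX : ev p U (fun ω => X ω * X ω) ≤ μ ^ 2 + μ := by
    simp only [hX, sum_mul_sum, ev_sum, ← ind_and]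
    calc ∑ i ∈ I, ∑ j ∈ I, ev p U (fun ω => ind (O i ω ∧ O j ω))
        ≤ ∑ i ∈ I, ∑ j ∈ I, (s * s + if i = j then s else 0) := by
          refine sum_le_sum fun i hi => sum_le_sum fun j hj => ?_
          split_ifs with hij
          · subst hij
            have e := hO i hi
            rw [pr] at e
            simp only [and_self_iff, e]
            exact le_add_of_nonneg_left (mul_self_nonneg s)
          · rw [add_zero]; exact hOO i hi j hj hij
      _ = μ ^ 2 + μ := by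
          simp only [sum_add_distrib, sum_ite_eq, sum_const, nsmul_eq_mul, hμ]
          rw [sum_congr rfl fun i hi => if_pos hi, sum_const, nsmul_eq_mul]
          ring
  refine (ev_mono h0 h1 fun ω _ => pw ω).trans ?_
  rw [ev_add, ev_mul_left, ev_mul_left, ev_add, ev_sub, ev_mul_left, ev_const, eX]
  have a1 : 2 / μ * ev p U Y ≤ 2 * b :=
    (mul_le_mul_of_nonneg_left eY (by positivity)).trans_eq (by field_simp)
  have a2 : 4 / μ ^ 2 * (ev p U (fun ω => X ω * X ω) - 2 * μ * μ + μ ^ 2) ≤ 4 / μ := by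
    refine (mul_le_mul_of_nonneg_left (show _ ≤ μ by nlinarith [eXX]) (by positivity)).trans_eq ?_
    field_simp
  linarith

end Product

variable {W : Type*} [DecidableEq W] {p : Sym2 W → ℝ}

/-- The connection inequality in the graph where the open set `σ` is contracted. -/
theorem quenched_le (h0 : ∀ e, 0 ≤ p e) (h1 : ∀ e, p e ≤ 1) (σ R : Finset (Sym2 W)) (a : W)
    (B : Finset W) {F : Set W → Prop} (hF : ∀ C D, C ⊆ D → F C → F D) {g : ℝ}
    (hg : ∀ u ∈ B, pr p R (fun η => ¬ F (cl {u} (σ ∪ η))) ≤ g) :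
    pr p R (fun η => a ∈ cl (B : Set W) (σ ∪ η) ∧ ¬ F (cl {a} (σ ∪ η))) ≤
      g * pr p R fun η => a ∈ cl (B : Set W) (σ ∪ η) := by
  classical
  set q := fun e => if e ∈ σ then (1 : ℝ) else p e with hq
  have q0 : ∀ e, 0 ≤ q e := fun e => by simp only [hq]; split_ifs <;> simp [h0 e]
  have q1 : ∀ e, q e ≤ 1 := fun e => by simp only [hq]; split_ifs <;> simp [h1 e]
  have ht : ∀ u ∈ B, 1 - g ≤ ev q (σ ∪ R) fun ω => ind (F (cl {u} ω)) := fun u hu => by
    rw [hq, ev_contract]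
    have e := pr_compl (p := p) (U := R) fun η => F (cl {u} (σ ∪ η))
    simp only [pr] at e hg
    linarith [hg u hu]
  have h := KN.connection_fun_of_le_one (U := σ ∪ R) q0 q1 a (B := B)
    (F := fun C => ind (F C)) (fun C D hCD => ind_mono (hF C D hCD)) ht
  simp only [hq, pr, ev_contract] at h
  simp only [pr]
  have e : ev p R (fun η => ind (a ∈ cl (B : Set W) (σ ∪ η) ∧ ¬ F (cl {a} (σ ∪ η)))) =
      ev p R (fun η => ind (a ∈ cl (B : Set W) (σ ∪ η))) -
        ev p R fun η => ind (a ∈ cl (B : Set W) (σ ∪ η)) * ind (F (cl {a} (σ ∪ η))) := by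
    rw [← ev_sub]
    refine ev_congr fun η _ => ?_
    by_cases hx : a ∈ cl (B : Set W) (σ ∪ η) <;> by_cases hy : F (cl {a} (σ ∪ η)) <;>
      simp [ind, hx, hy]
  linarith

/-- The quenched bound with the seeds judged on a smaller revealed part. -/
theorem quenched_le_of_subset (h0 : ∀ e, 0 ≤ p e) (h1 : ∀ e, p e ≤ 1) {σ₁ σ : Finset (Sym2 W)}
    (hσ : σ₁ ⊆ σ) (R : Finset (Sym2 W)) (a : W) (B : Finset W) {F : Set W → Prop}
    (hF : ∀ C D, C ⊆ D → F C → F D) {g : ℝ} (hg0 : 0 ≤ g)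
    (hg : ∀ u ∈ B, pr p R (fun η => ¬ F (cl {u} (σ₁ ∪ η))) ≤ g) :
    pr p R (fun η => a ∈ cl (B : Set W) (σ ∪ η) ∧ ¬ F (cl {a} (σ ∪ η))) ≤ g :=
  (quenched_le h0 h1 σ R a B hF fun u hu => le_trans
    (pr_mono h0 h1 fun _ _ hn hc => hn (hF _ _ (cl_mono subset_rfl
      (union_subset_union_left hσ)) hc)) (hg u hu)).trans
    (mul_le_of_le_one_right hg0 (pr_le_one h0 h1 _))

end Vale.Agent.P151.Red
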