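import Vale.Agent.P151.FiniteBasic

/-!
An oriented Peierls estimate without planar topology: a finite set of cells in the quadrant that
contains the origin has a closed boundary path, at least half of whose edges face forward, and the
path is coded by a word in three turns.
-/

open Finset

namespace Vale.Agent.P151.Reduction

/-- A cell of the coarse quadrant. -/
abbrev Cell : Type := ℤ × ℤ

/-- A forward bond: its source cell and a sign. -/
abbrev Bond : Type := Cell × Bool

/-- The target of a bond. -/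
def bondTarget (b : Bond) : Cell := b.1 + if b.2 then (1, 0) else (0, 1)

/-- Cells of the triangle below level `T`. -/
noncomputable def tri (T : ℕ) : Finset Cell := (Ico 0 (T : ℤ) ×ˢ Ico 0 (T : ℤ)).filter fun a => a.1 + a.2 < T

namespace Contour

/-- The unit step in each of the four directions east, north, west, south. -/
def unitStep : Fin 4 → Cell := ![(1, 0), (0, 1), (-1, 0), (0, -1)]

/-- The lower left corners of the four cells around a lattice point. -/
def corner : Fin 4 → Cell := ![(0, 0), (-1, 0), (-1, -1), (0, -1)]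

lemma unitStep_corner : ∀ d : Fin 4, unitStep d + corner (d + 1) = corner d ∧
    unitStep d + corner (d + 2) = corner (d + 3) := by decide

/-- The three turns. -/
def turn : Fin 3 → Fin 4 := ![3, 0, 1]

/-- The turn chosen from the occupation of the cells around the head of an edge. -/
def pick (o : Fin 4 → Bool) (d : Fin 4) : Fin 3 := if o (d + 3) then 0 else if o d then 1 else 2

lemma pick_valid : ∀ o : Fin 4 → Bool, ∀ d : Fin 4, o (d + 1) = true → o (d + 2) = false →
    o (d + turn (pick o d)) = true ∧ o (d + turn (pick o d) + 3) = false := by decide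

lemma pick_inj : ∀ o : Fin 4 → Bool, ∀ d d' : Fin 4, o (d + 1) = true → o (d + 2) = false →
    o (d' + 1) = true → o (d' + 2) = false →
    d + turn (pick o d) = d' + turn (pick o d') → d = d' := by decide

variable (W : Finset Cell)

/-- An oriented edge with an occupied cell on its left and a free cell on its right. -/
def IsEdge (e : Cell × Fin 4) : Prop :=
  e.1 + corner e.2 ∈ W ∧ e.1 + corner (e.2 + 3) ∉ W

/-- Occupation of the cells around a point. -/
def occ (y : Cell) (k : Fin 4) : Bool := decide (y + corner k ∈ W)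

/-- The turn taken at the head of an edge. -/
def edgeTurn (e : Cell × Fin 4) : Fin 3 := pick (occ W (e.1 + unitStep e.2)) e.2

/-- Follow an edge and turn. -/
def move (e : Cell × Fin 4) (r : Fin 3) : Cell × Fin 4 := (e.1 + unitStep e.2, e.2 + turn r)

/-- The next edge of the boundary. -/
def succEdge (e : Cell × Fin 4) : Cell × Fin 4 := move e (edgeTurn W e)

variable {W}

lemma occ_head {e : Cell × Fin 4} (h : IsEdge W e) :
    occ W (e.1 + unitStep e.2) (e.2 + 1) = true ∧
      occ W (e.1 + unitStep e.2) (e.2 + 2) = false := by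
  obtain ⟨h1, h2⟩ := unitStep_corner e.2
  simp only [occ, decide_eq_true_eq, decide_eq_false_iff_not, add_assoc, h1, h2]
  exact h

lemma succEdge_isEdge {e : Cell × Fin 4} (h : IsEdge W e) : IsEdge W (succEdge W e) := by
  obtain ⟨h1, h2⟩ := occ_head h
  obtain ⟨h3, h4⟩ := pick_valid _ _ h1 h2
  exact ⟨by simpa [occ, succEdge, move, edgeTurn] using h3,
    by simpa [occ, succEdge, move, edgeTurn] using h4⟩

lemma succEdge_injOn {e e' : Cell × Fin 4} (h : IsEdge W e) (h' : IsEdge W e')
    (he : succEdge W e = succEdge W e') : e = e' := by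
  simp only [succEdge, move, edgeTurn, Prod.mk.injEq] at he
  obtain ⟨hy, hd⟩ := he
  obtain ⟨a1, a2⟩ := occ_head h
  obtain ⟨b1, b2⟩ := occ_head h'
  rw [← hy] at hd b1 b2
  have := pick_inj _ _ _ a1 a2 b1 b2 hd
  refine Prod.ext ?_ this
  rw [this] at hy
  exact add_right_cancel hy

variable (W) in
/-- All edges of the boundary. -/
def edges : Finset (Cell × Fin 4) :=
  ((W ×ˢ (univ : Finset (Fin 4))).image fun a => (a.1 - corner a.2, a.2)).filter fun e =>
    e.1 + corner e.2 ∈ W ∧ e.1 + corner (e.2 + 3) ∉ W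

lemma mem_edges {e : Cell × Fin 4} : e ∈ edges W ↔ IsEdge W e := by
  simp only [edges, mem_filter, mem_image, IsEdge]
  refine ⟨fun h => h.2, fun h => ⟨⟨(e.1 + corner e.2, e.2), by simp [h.1], by simp⟩, h⟩⟩

lemma card_edges : (edges W).card ≤ 4 * W.card := by
  refine (card_filter_le _ _).trans (card_image_le.trans ?_)
  simp [mul_comm]

/-- The path of a word, from the edge under the origin. -/
def walk (r : ℕ → Fin 3) : ℕ → Cell × Fin 4
  | 0 => ((0, 0), 0)
  | i + 1 => move (walk r i) (r i)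

lemma walk_congr {r r' : ℕ → Fin 3} : ∀ {i : ℕ}, (∀ j < i, r j = r' j) → walk r i = walk r' i
  | 0, _ => rfl
  | i + 1, h => by
    rw [walk, walk, walk_congr fun j hj => h j (by omega), h i (by omega)]

/-- An edge facing forward: north or west. -/
def Forward (e : Cell × Fin 4) : Prop := e.2 = 1 ∨ e.2 = 2

instance : DecidablePred Forward := fun e => inferInstanceAs (Decidable (_ ∨ _))

lemma unitStep_diff : ∀ d : Fin 4, (unitStep d).1 - (unitStep d).2 =
    1 - 2 * if d = 1 ∨ d = 2 then (1 : ℤ) else 0 := by decide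

lemma walk_diff (r : ℕ → Fin 3) : ∀ i : ℕ, (walk r i).1.1 - (walk r i).1.2 =
    (i : ℤ) - 2 * ((range i).filter fun j => Forward (walk r j)).card
  | 0 => by simp [walk]
  | i + 1 => by
    have h := walk_diff r i
    have hs := unitStep_diff (walk r i).2
    rw [range_add_one, filter_insert]
    simp only [walk, move, Prod.fst_add, Prod.snd_add]
    by_cases hf : Forward (walk r i)
    · rw [if_pos hf, card_insert_of_notMem (by simp)]
      rw [if_pos (show (walk r i).2 = 1 ∨ (walk r i).2 = 2 from hf)] at hs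
      push_cast
      omega
    · rw [if_neg hf]
      rw [if_neg (show ¬ ((walk r i).2 = 1 ∨ (walk r i).2 = 2) from hf)] at hs
      push_cast
      omega

/-- The bond of an edge that faces forward. -/
def edgeBond (e : Cell × Fin 4) : Bond := (e.1 + corner e.2, decide (e.2 = 1))

lemma edgeBond_target {e : Cell × Fin 4} (h : Forward e) :
    bondTarget (edgeBond e) = e.1 + corner (e.2 + 3) := by
  obtain ⟨x, d⟩ := e
  rcases h with h | h <;> simp only at h <;> subst h <;>
    simp [bondTarget, edgeBond, corner, Prod.ext_iff]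

lemma edgeBond_injOn {e e' : Cell × Fin 4} (h : Forward e) (h' : Forward e')
    (he : edgeBond e = edgeBond e') : e = e' := by
  obtain ⟨x, d⟩ := e
  obtain ⟨x', d'⟩ := e'
  simp only [edgeBond, Prod.mk.injEq] at he
  rcases h with h | h <;> rcases h' with h' | h' <;> simp only at h h' <;> subst h <;> subst h' <;>
    simp_all

end Contour

open Contour

/-- The forward bonds along the path of a word of length `2 * k`. -/
def wordBonds {k : ℕ} (w : Fin (2 * k) → Fin 3) : Finset Bond :=
  ((range (2 * k)).filter fun i =>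
    Forward (walk (fun j => if h : j < 2 * k then w ⟨j, h⟩ else 0) i)).image fun i =>
    edgeBond (walk (fun j => if h : j < 2 * k then w ⟨j, h⟩ else 0) i)

/-- A finite set of cells of the quadrant with the origin has a word of some length `2 * k` whose
`k` forward bonds all leave the set. -/
theorem exists_contour (W : Finset Cell) (h0 : (0, 0) ∈ W)
    (hpos : ∀ a ∈ W, 0 ≤ a.1 ∧ 0 ≤ a.2) :
    ∃ k ∈ Icc 1 (2 * W.card), ∃ w : Fin (2 * k) → Fin 3, (wordBonds w).card = k ∧
      ∀ b ∈ wordBonds w, b.1 ∈ W ∧ bondTarget b ∉ W := by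
  classical
  have hstart : IsEdge W ((0, 0), 0) := by
    refine ⟨by simpa [corner] using h0, fun h => ?_⟩
    have := (hpos _ h).2
    simp [corner] at this
  let f : {e // e ∈ edges W} → {e // e ∈ edges W} := fun e =>
    ⟨succEdge W e.1, mem_edges.2 (succEdge_isEdge (mem_edges.1 e.2))⟩
  have hf : Function.Injective f := fun a b hab => Subtype.ext
    (succEdge_injOn (mem_edges.1 a.2) (mem_edges.1 b.2) (congrArg Subtype.val hab))
  let e0 : {e // e ∈ edges W} := ⟨((0, 0), 0), mem_edges.2 hstart⟩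
  set l := Function.minimalPeriod f e0 with hl
  have hl0 : 0 < l :=
    Function.minimalPeriod_pos_of_mem_periodicPts (hf.mem_periodicPts e0)
  let r : ℕ → Fin 3 := fun i => edgeTurn W (f^[i] e0).1
  have hwalk : ∀ i, walk r i = (f^[i] e0).1 := by
    intro i
    induction i with
    | zero => rfl
    | succ i ih => rw [walk, ih, Function.iterate_succ_apply']; rfl
  have hinj : ∀ i < l, ∀ j < l, walk r i = walk r j → i = j := by
    intro i hi j hj hij
    rw [hwalk, hwalk] at hij
    exact (Function.iterate_eq_iterate_iff_of_lt_minimalPeriod hi hj).1 (Subtype.ext hij)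
  have hle : l ≤ 4 * W.card := by
    refine le_trans ?_ (card_edges (W := W))
    have := card_le_card_of_injOn (s := range l) (t := edges W) (walk r)
      (fun i _ => by rw [hwalk]; exact (f^[i] e0).2)
      (fun i hi j hj => hinj i (mem_range.1 hi) j (mem_range.1 hj))
    simpa using this
  set k := ((range l).filter fun i => Forward (walk r i)).card with hk
  have hlk : l = 2 * k := by
    have h := walk_diff r l
    have hper : f^[l] e0 = e0 := Function.iterate_minimalPeriod
    have hzero : e0.1.1.1 - e0.1.1.2 = 0 := rfl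
    rw [hwalk l, hper, hzero] at h
    omega
  let w : Fin (2 * k) → Fin 3 := fun i => r i
  have hw : ∀ i < l, walk (fun j => if h : j < 2 * k then w ⟨j, h⟩ else 0) i = walk r i :=
    fun i hi => walk_congr fun j hj => by rw [dif_pos (by omega : j < 2 * k)]
  have hset : wordBonds w =
      ((range l).filter fun i => Forward (walk r i)).image fun i => edgeBond (walk r i) := by
    have hr : range (2 * k) = range l := by rw [hlk]
    rw [wordBonds, hr]
    have : (range l).filter (fun i =>
        Forward (walk (fun j => if h : j < 2 * k then w ⟨j, h⟩ else 0) i)) =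
        (range l).filter fun i => Forward (walk r i) :=
      filter_congr fun i hi => by rw [hw i (mem_range.1 hi)]
    rw [this]
    exact image_congr fun i hi => by
      simp only [coe_filter, mem_range, Set.mem_setOf_eq] at hi
      rw [hw i hi.1]
  refine ⟨k, mem_Icc.2 ⟨by omega, by omega⟩, w, ?_, ?_⟩
  · rw [hset, card_image_of_injOn]
    intro i hi j hj hij
    simp only [coe_filter, mem_range, Set.mem_setOf_eq] at hi hj
    exact hinj i hi.1 j hj.1 (edgeBond_injOn hi.2 hj.2 hij)
  · intro b hb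
    rw [hset, mem_image] at hb
    obtain ⟨i, hi, rfl⟩ := hb
    rw [mem_filter] at hi
    have he : IsEdge W (walk r i) := by rw [hwalk]; exact mem_edges.1 (f^[i] e0).2
    exact ⟨he.1, by rw [edgeBond_target hi.2]; exact he.2⟩

/-- A power bound for classes: if `n ≤ C * m` and `h ≤ q ^ C` then `h ^ m ≤ q ^ n`. -/
lemma pow_le_pow_class {h q : ℝ} {n m C : ℕ} (hh : 0 ≤ h) (hq0 : 0 ≤ q) (hq1 : q ≤ 1)
    (hC : h ≤ q ^ C) (hn : n ≤ C * m) : h ^ m ≤ q ^ n :=
  calc h ^ m ≤ (q ^ C) ^ m := pow_le_pow_left₀ hh hC m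
    _ = q ^ (C * m) := (pow_mul q C m).symm
    _ ≤ q ^ n := pow_le_pow_of_le_one hq0 hq1 hn

lemma bondTarget_facts : ∀ b : Bond,
    (bondTarget b).1 + (bondTarget b).2 = b.1.1 + b.1.2 + 1 ∧
      b.1.1 ≤ (bondTarget b).1 ∧ b.1.2 ≤ (bondTarget b).2 := by
  rintro ⟨⟨x, y⟩, s⟩
  cases s <;> simp [bondTarget] <;> omega

/-- The words of all lengths up to `2 * N` with few forward bonds, all below level `T`. -/
noncomputable def words (T N : ℕ) : Finset (Σ k : ℕ, Fin (2 * k) → Fin 3) :=
  (Icc 1 N).sigma fun k =>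
    univ.filter fun w => (wordBonds w).card = k ∧ ∀ b ∈ wordBonds w, b.1 ∈ tri T

lemma mem_words {T N : ℕ} {x : Σ k : ℕ, Fin (2 * k) → Fin 3} : x ∈ words T N ↔
    (1 ≤ x.1 ∧ x.1 ≤ N) ∧ (wordBonds x.2).card = x.1 ∧ ∀ b ∈ wordBonds x.2, b.1 ∈ tri T := by
  simp [words]

lemma mem_tri {T : ℕ} {a : Cell} : a ∈ tri T ↔ 0 ≤ a.1 ∧ 0 ≤ a.2 ∧ a.1 + a.2 < T := by
  simp only [tri, mem_filter, mem_product, mem_Ico]
  omega

lemma sum_words_le {T N : ℕ} {q : ℝ} (hq0 : 0 ≤ q) (hq : q ≤ 1 / 36) :
    ∑ x ∈ words T N, q ^ x.1 ≤ 1 / 2 := by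
  rw [words, sum_sigma]
  refine le_trans (sum_le_sum (g := fun k => (9 * q) ^ k) fun k _ => ?_) ?_
  · dsimp only
    rw [sum_const, nsmul_eq_mul, mul_pow]
    refine mul_le_mul_of_nonneg_right ?_ (pow_nonneg hq0 _)
    refine le_trans (Nat.cast_le.2 (card_filter_le _ _)) ?_
    simp [pow_mul]
  · rw [← Ico_add_one_right_eq_Icc]
    refine (geom_sum_Ico_le_of_lt_one (by positivity) (by linarith)).trans ?_
    rw [div_le_iff₀ (by linarith)]
    linarith

/-- If level `T` is not reached, the bonds of some word are all bad. -/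
theorem exists_bad_word {T : ℕ} {R : Cell → Prop} {bad : Bond → Prop} (h0 : R (0, 0))
    (hnot : ¬ ∃ a : Cell, 0 ≤ a.1 ∧ 0 ≤ a.2 ∧ a.1 + a.2 = T ∧ R a)
    (hbad : ∀ b : Bond, b.1 ∈ tri T → R b.1 → ¬ R (bondTarget b) → bad b) :
    ∃ x ∈ words T (2 * (tri T).card), ∀ b ∈ wordBonds x.2, bad b := by
  classical
  set W := (tri T).filter R with hW
  have hT : 0 < T := by
    by_contra h
    exact hnot ⟨(0, 0), le_rfl, le_rfl, by simp; omega, h0⟩
  have h00 : ((0, 0) : Cell) ∈ W := mem_filter.2 ⟨mem_tri.2 ⟨le_rfl, le_rfl, by simpa⟩, h0⟩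
  have hpos : ∀ a ∈ W, 0 ≤ a.1 ∧ 0 ≤ a.2 := fun a ha =>
    ⟨(mem_tri.1 (mem_filter.1 ha).1).1, (mem_tri.1 (mem_filter.1 ha).1).2.1⟩
  obtain ⟨k, hk, w, hc, hb⟩ := exists_contour W h00 hpos
  rw [mem_Icc] at hk
  refine ⟨⟨k, w⟩, mem_words.2 ⟨⟨hk.1, hk.2.trans (Nat.mul_le_mul_left 2 (card_filter_le _ _))⟩,
    hc, fun b hbm => (mem_filter.1 (hb b hbm).1).1⟩, fun b hbm => ?_⟩
  obtain ⟨hin, hout⟩ := hb b hbm
  obtain ⟨htri, hR⟩ := mem_filter.1 hin
  refine hbad b htri hR fun hR' => ?_
  obtain ⟨e, e1, e2⟩ := bondTarget_facts b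
  obtain ⟨p1, p2, p3⟩ := mem_tri.1 htri
  by_cases heq : (bondTarget b).1 + (bondTarget b).2 = T
  · exact hnot ⟨_, by omega, by omega, heq, hR'⟩
  · exact hout (mem_filter.2 ⟨mem_tri.2 ⟨by omega, by omega, by omega⟩, hR'⟩)

variable {α : Type*} [DecidableEq α] {p : α → ℝ} {U : Finset α}

/-- Oriented Peierls bound: if every set of bonds below level `T` fails with probability at most
`q` to its size, with small `q`, then from the start some cell at level `T` is reached with at
least half of the probability of the start. -/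
theorem peierls (h0 : ∀ e, 0 ≤ p e) (h1 : ∀ e, p e ≤ 1) {E : Finset α → Prop}
    {R : Cell → Finset α → Prop} {bad : Bond → Finset α → Prop} {T : ℕ} {q : ℝ}
    (hq0 : 0 ≤ q) (hq : q ≤ 1 / 36)
    (hstart : ∀ S, S ⊆ U → E S → R (0, 0) S)
    (hbad : ∀ b : Bond, b.1 ∈ tri T → ∀ S, S ⊆ U → E S → R b.1 S → ¬ R (bondTarget b) S → bad b S)
    (hI : ∀ I : Finset Bond, I.Nonempty → (∀ b ∈ I, b.1 ∈ tri T) →
      Fin.pr p U (fun S => E S ∧ ∀ b ∈ I, bad b S) ≤ q ^ I.card * Fin.pr p U E) :
    Fin.pr p U E / 2 ≤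
      Fin.pr p U fun S => E S ∧ ∃ a : Cell, 0 ≤ a.1 ∧ 0 ≤ a.2 ∧ a.1 + a.2 = T ∧ R a S := by
  classical
  set N := 2 * (tri T).card
  have key : ∀ S, S ⊆ U → Fin.ind (E S) ≤
      Fin.ind (E S ∧ ∃ a : Cell, 0 ≤ a.1 ∧ 0 ≤ a.2 ∧ a.1 + a.2 = T ∧ R a S) +
        ∑ x ∈ words T N, Fin.ind (E S ∧ ∀ b ∈ wordBonds x.2, bad b S) := by
    intro S hS
    have hsum := sum_nonneg fun x (_ : x ∈ words T N) =>
      Fin.ind_nonneg (E S ∧ ∀ b ∈ wordBonds x.2, bad b S)
    by_cases hE : E S
    swap
    · rw [Fin.ind_false hE]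
      linarith [Fin.ind_nonneg (E S ∧ ∃ a : Cell, 0 ≤ a.1 ∧ 0 ≤ a.2 ∧ a.1 + a.2 = T ∧ R a S)]
    by_cases hA : ∃ a : Cell, 0 ≤ a.1 ∧ 0 ≤ a.2 ∧ a.1 + a.2 = T ∧ R a S
    · rw [Fin.ind_true (show E S ∧ _ from ⟨hE, hA⟩)]
      linarith [Fin.ind_le_one (E S)]
    rw [Fin.ind_false (fun h : E S ∧ _ => hA h.2), zero_add]
    obtain ⟨x, hx, hall⟩ := exists_bad_word (R := fun a => R a S) (bad := fun b => bad b S)
      (hstart S hS hE) hA fun b hb h1 h2 => hbad b hb S hS hE h1 h2
    calc Fin.ind (E S) = Fin.ind (E S ∧ ∀ b ∈ wordBonds x.2, bad b S) :=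
          Fin.ind_congr ⟨fun h => ⟨h, hall⟩, fun h => h.1⟩
      _ ≤ _ := single_le_sum (f := fun x : (Σ k : ℕ, Fin (2 * k) → Fin 3) =>
          Fin.ind (E S ∧ ∀ b ∈ wordBonds x.2, bad b S)) (fun x _ => Fin.ind_nonneg _) hx
  have hP : 0 ≤ Fin.pr p U E := Fin.ev_nonneg h0 h1 fun S _ => Fin.ind_nonneg _
  have h := Fin.ev_mono h0 h1 key
  rw [Fin.ev_add, Fin.ev_sum] at h
  change Fin.pr p U E ≤ Fin.pr p U _ + ∑ x ∈ words T N, Fin.pr p U _ at h
  have hbound : ∑ x ∈ words T N, Fin.pr p U (fun S => E S ∧ ∀ b ∈ wordBonds x.2, bad b S) ≤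
      Fin.pr p U E / 2 := by
    calc _ ≤ ∑ x ∈ words T N, q ^ x.1 * Fin.pr p U E := by
          refine sum_le_sum fun x hx => ?_
          obtain ⟨⟨h1k, -⟩, hc, hb⟩ := mem_words.1 hx
          have := hI _ (card_pos.1 (by omega)) hb
          rwa [hc] at this
      _ ≤ 1 / 2 * Fin.pr p U E := by
          rw [← sum_mul]
          exact mul_le_mul_of_nonneg_right (sum_words_le hq0 hq) hP
      _ = Fin.pr p U E / 2 := by ring
  linarith

end Vale.Agent.P151.Reduction
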