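import Vale.Agent.P151.Reduction.Defs

/-!
Finite geometry of the renormalisation: seeds, separated selections and the nesting and
disjointness of the regions attached to coarse cells.
-/

open Finset

namespace Vale.Agent.P151.Red

open Vale.Agent.P165 (cl cl_step subset_cl)

variable {d : ℕ}

lemma mem_of_mem_inEdges {X : Finset (V d)} {e : Sym2 (V d)} {v : V d} (he : e ∈ inEdges X)
    (hv : v ∈ e) : v ∈ X := by
  induction e using Sym2.ind with
  | h x y =>
    obtain ⟨-, hx, hy⟩ := mem_inEdges.1 he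
    rcases Sym2.mem_iff.1 hv with rfl | rfl
    · exact hx
    · exact hy

lemma move_adj (x : V d) (i : Fin d) (σ : ℤˣ) : (zd d).Adj x (move x i (σ : ℤ)) := by
  refine ⟨i, ?_, fun j hj => (move_of_ne x _ hj).symm⟩
  rw [move_self]
  rcases Int.units_eq_one_or σ with h | h <;> simp [h]

lemma units_sq (σ : ℤˣ) (a : ℤ) : (σ : ℤ) * ((σ : ℤ) * a) = a := by
  rw [← mul_assoc, ← Units.val_mul, Int.units_mul_self, Units.val_one, one_mul]

/-- The coordinates of a vertex of a seed with its entry edge. -/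
lemma oEdges_vertex {m : ℕ} {i : Fin d} {σ : ℤˣ} {x v : V d} {e : Sym2 (V d)}
    (he : e ∈ oEdges m i σ x) (hv : v ∈ e) :
    (∀ j, j ≠ i → x j - m ≤ v j ∧ v j ≤ x j + m) ∧
      0 ≤ (σ : ℤ) * (v i - x i) ∧ (σ : ℤ) * (v i - x i) ≤ 2 * m + 1 := by
  rcases mem_insert.1 he with rfl | he
  · rcases Sym2.mem_iff.1 hv with rfl | rfl
    · exact ⟨fun j _ => by omega, by simp, by simp; omega⟩
    · refine ⟨fun j hj => by rw [move_of_ne x _ hj]; omega, ?_, ?_⟩ <;>
        simp only [move_self, add_sub_cancel_left, ← Units.val_mul, Int.units_mul_self,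
          Units.val_one] <;> omega
  · have hc := mem_cube.1 (mem_of_mem_inEdges he hv)
    refine ⟨fun j hj => ?_, ?_⟩
    · have := hc j
      rw [cen, move_of_ne x _ hj] at this
      exact this
    · have := hc i
      rw [cen, move_self] at this
      rcases Int.units_eq_one_or σ with h | h <;> simp [h] at this ⊢ <;> omega

/-- Every edge of a seed has an end beyond the contact plane. -/
lemma oEdges_far {m : ℕ} {i : Fin d} {σ : ℤˣ} {x : V d} {e : Sym2 (V d)}
    (he : e ∈ oEdges m i σ x) : ∃ v ∈ e, 1 ≤ (σ : ℤ) * (v i - x i) := by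
  rcases mem_insert.1 he with rfl | he
  · refine ⟨move x i σ, Sym2.mem_mk_right _ _, ?_⟩
    simp only [move_self, add_sub_cancel_left, ← Units.val_mul, Int.units_mul_self, Units.val_one]
    exact le_rfl
  · induction e using Sym2.ind with
    | h a b =>
      refine ⟨a, Sym2.mem_mk_left _ _, ?_⟩
      have := mem_cube.1 (mem_inEdges.1 he).2.1 i
      rw [cen, move_self] at this
      rcases Int.units_eq_one_or σ with h | h <;> simp [h] at this ⊢ <;> omega

/-- A seed lies inside every region that contains its coordinate range. -/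
lemma oEdges_subset_inEdges {m : ℕ} {i : Fin d} {σ : ℤˣ} {x : V d} {X : Finset (V d)}
    (h : ∀ v : V d, (∀ j, j ≠ i → x j - m ≤ v j ∧ v j ≤ x j + m) →
      0 ≤ (σ : ℤ) * (v i - x i) → (σ : ℤ) * (v i - x i) ≤ 2 * m + 1 → v ∈ X) :
    oEdges m i σ x ⊆ inEdges X := by
  intro e he
  have hX : ∀ v ∈ e, v ∈ X := fun v hv =>
    h v (oEdges_vertex he hv).1 (oEdges_vertex he hv).2.1 (oEdges_vertex he hv).2.2
  induction e using Sym2.ind with
  | h a b =>
    refine mem_inEdges.2 ⟨?_, hX a (Sym2.mem_mk_left _ _), hX b (Sym2.mem_mk_right _ _)⟩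
    rcases mem_insert.1 he with he | he
    · rcases Sym2.eq_iff.1 he with ⟨rfl, rfl⟩ | ⟨rfl, rfl⟩
      · exact move_adj _ i σ
      · exact (move_adj _ i σ).symm
    · exact (mem_inEdges.1 he).1

/-- A seed joins its centre to all its vertices. -/
lemma mem_cl_seed {c y : V d} {m : ℕ} (hy : y ∈ cube c m) : y ∈ cl {c} (seedE m c) := by
  classical
  induction hn : ∑ i, (y i - c i).natAbs using Nat.strong_induction_on generalizing y with
  | _ n ih =>
    subst hn
    by_cases hyc : y = c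
    · subst hyc; exact subset_cl _ _ rfl
    obtain ⟨i, hi⟩ : ∃ i, y i ≠ c i := Function.ne_iff.1 hyc
    obtain ⟨s, hs⟩ : ∃ s : ℤˣ, (y i + s - c i).natAbs + 1 = (y i - c i).natAbs := by
      rcases lt_or_gt_of_ne hi with h | h
      · exact ⟨1, by simp only [Units.val_one]; omega⟩
      · exact ⟨-1, by simp only [Units.val_neg, Units.val_one]; omega⟩
    have hy' : move y i (s : ℤ) ∈ cube c m := by
      refine mem_cube.2 fun j => ?_
      have := mem_cube.1 hy j
      by_cases hj : j = i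
      · subst hj; rw [move_self]; omega
      · rwa [move_of_ne y _ hj]
    have hlt : ∑ j, (move y i (s : ℤ) j - c j).natAbs < ∑ j, (y j - c j).natAbs := by
      refine sum_lt_sum (fun j _ => ?_) ⟨i, mem_univ i, ?_⟩
      · by_cases hj : j = i
        · subst hj; rw [move_self]; omega
        · rw [move_of_ne y _ hj]
      · rw [move_self]; omega
    exact cl_step (ih _ hlt hy' rfl) (mem_inEdges.2 ⟨(move_adj y i s).symm, hy', hy⟩)

lemma entry_mem_cube (m : ℕ) (i : Fin d) (σ : ℤˣ) (x : V d) :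
    move x i (σ : ℤ) ∈ cube (cen m i σ x) m := by
  refine mem_cube.2 fun j => ?_
  by_cases hj : j = i
  · subst hj
    simp only [cen, move_self]
    rcases Int.units_eq_one_or σ with h | h <;> simp [h] <;> omega
  · simp only [cen, move_of_ne x _ hj]; omega

/-- A contact reached with its seed open gives the centre of the seed. -/
lemma mem_cl_cen {m : ℕ} {i : Fin d} {σ : ℤˣ} {x : V d} {S : Set (V d)}
    {w : Finset (Sym2 (V d))} (hw : oEdges m i σ x ⊆ w) (hx : x ∈ cl S w) :
    cen m i σ x ∈ cl S w := by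
  have h1 : move x i (σ : ℤ) ∈ cl S w := cl_step hx (hw (mem_insert_self _ _))
  obtain ⟨c, hc, hr⟩ := mem_cl_seed (entry_mem_cube m i σ x)
  obtain ⟨a, ha, har⟩ := h1
  rw [Set.mem_singleton_iff] at hc
  subst hc
  exact ⟨a, ha, har.trans (hr.symm.mono (SimpleGraph.fromEdgeSet_mono
    (Finset.coe_subset.2 ((seedE_subset_oEdges m i σ x).trans hw))))⟩

/-- The centre of an open seed gives its contact. -/
lemma mem_cl_of_cen {m : ℕ} {i : Fin d} {σ : ℤˣ} {x : V d} {S : Set (V d)}
    {w : Finset (Sym2 (V d))} (hw : oEdges m i σ x ⊆ w) (hx : cen m i σ x ∈ cl S w) :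
    x ∈ cl S w := by
  have h1 : move x i (σ : ℤ) ∈ cl S w :=
    P165.cl_trans (Set.singleton_subset_iff.2 hx) ((seedE_subset_oEdges m i σ x).trans hw)
      (mem_cl_seed (entry_mem_cube m i σ x))
  refine cl_step h1 ?_
  rw [Sym2.eq_swap]
  exact hw (mem_insert_self _ _)

lemma seedE_card (m : ℕ) (c c' : V d) : (seedE m c).card = (seedE m c').card := by
  suffices ∀ a b : V d, (seedE m a).card ≤ (seedE m b).card from
    le_antisymm (this c c') (this c' c)
  intro a b
  refine card_le_card_of_injOn (Sym2.map fun v => v + (b - a)) ?_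
    (fun e _ e' _ h => Sym2.map.injective (add_left_injective _) h)
  intro e he
  simp only [mem_coe] at he ⊢
  induction e using Sym2.ind with
  | h x y =>
    obtain ⟨hadj, hx, hy⟩ := mem_inEdges.1 he
    rw [Sym2.map_mk]
    refine mem_inEdges.2 ⟨(shift (b - a)).map_rel_iff.2 hadj, ?_, ?_⟩ <;>
      refine mem_cube.2 fun j => ?_
    · have := mem_cube.1 hx j
      simp only [Pi.add_apply, Pi.sub_apply]; omega
    · have := mem_cube.1 hy j
      simp only [Pi.add_apply, Pi.sub_apply]; omega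

lemma oEdges_card (m : ℕ) (i j : Fin d) (σ τ : ℤˣ) (x y : V d) :
    (oEdges m i σ x).card = (oEdges m j τ y).card := by
  have h : ∀ (i : Fin d) (σ : ℤˣ) (x : V d),
      (oEdges m i σ x).card = (seedE m (cen m i σ x)).card + 1 := by
    intro i σ x
    refine card_insert_of_notMem fun hmem => ?_
    have := mem_cube.1 (mem_inEdges.1 hmem).2.1 i
    rw [cen, move_self] at this
    rcases Int.units_eq_one_or σ with h | h <;> simp [h] at this <;> omega
  rw [h, h, seedE_card]

/-- Seeds at contacts that are far apart share no edge. -/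
lemma oEdges_disjoint {m : ℕ} {i : Fin d} {σ : ℤˣ} {x y : V d}
    (h : y ∉ cube x (2 * m + 2)) : Disjoint (oEdges m i σ x) (oEdges m i σ y) := by
  refine disjoint_left.2 fun e hx hy => h (mem_cube.2 fun j => ?_)
  induction e using Sym2.ind with
  | h a b =>
    obtain ⟨x1, x2, x3⟩ := oEdges_vertex hx (Sym2.mem_mk_left a b)
    obtain ⟨y1, y2, y3⟩ := oEdges_vertex hy (Sym2.mem_mk_left a b)
    by_cases hj : j = i
    · subst hj
      rcases Int.units_eq_one_or σ with h | h <;> simp [h] at x2 x3 y2 y3 <;> push_cast <;> omega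
    · have := x1 j hj
      have := y1 j hj
      push_cast
      omega

/-- A positive proportion of any set of contacts has disjoint seeds. -/
lemma exists_separated (m : ℕ) (i : Fin d) (σ : ℤˣ) (Z : Finset (V d)) :
    ∃ Y ⊆ Z, Z.card ≤ Y.card * sepC d m ∧
      (Y : Set (V d)).PairwiseDisjoint (oEdges m i σ) := by
  classical
  have hc : ∀ c : V d, (cube c (2 * m + 2)).card = sepC d m := by
    intro c
    simp only [cube, rect, Fintype.card_piFinset, Int.card_Icc]
    have : ∀ j : Fin d,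
        (c j + ((2 * m + 2 : ℕ) : ℤ) + 1 - (c j - ((2 * m + 2 : ℕ) : ℤ))).toNat = 4 * m + 5 :=
      fun j => by omega
    simp only [this, prod_const, card_univ, Fintype.card_fin, sepC]
  induction hn : Z.card using Nat.strong_induction_on generalizing Z with
  | _ n ih =>
    subst hn
    rcases Z.eq_empty_or_nonempty with rfl | ⟨a, ha⟩
    · exact ⟨∅, subset_refl _, by simp, by simp⟩
    set R := Z \ cube a (2 * m + 2) with hR
    have hlt : R.card < Z.card := card_lt_card
      (ssubset_iff_of_subset sdiff_subset |>.2 ⟨a, ha, fun h => (mem_sdiff.1 h).2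
        (self_mem_cube a _)⟩)
    obtain ⟨Y, hY, hcard, hdis⟩ := ih _ hlt R rfl
    have haY : a ∉ Y := fun h => (mem_sdiff.1 (hY h)).2 (self_mem_cube a _)
    refine ⟨insert a Y, insert_subset ha (hY.trans sdiff_subset), ?_, ?_⟩
    · rw [card_insert_of_notMem haY, Nat.add_mul, one_mul]
      have h1 : Z.card ≤ R.card + (cube a (2 * m + 2)).card :=
        card_le_card_sdiff_add_card
      rw [hc] at h1
      omega
    · rw [coe_insert]
      exact hdis.insert fun b hb _ => oEdges_disjoint (mem_sdiff.1 (hY hb)).2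

namespace Geo

variable (G : Geo d) {z z' T : ℤ} {σ : ℤˣ} {v : V d} {e : Sym2 (V d)}
  {U : Finset (Sym2 (V d))}

lemma L_eq : G.L = (G.ell : ℤ) * G.n := by simp [L]

lemma forty_n_le_L : 40 * (G.n : ℤ) ≤ G.L := by
  rw [L_eq]
  have := G.hell
  gcongr
  exact_mod_cast this

lemma n_bound : 2 * ((G.m : ℤ) + 1) ≤ G.n := by exact_mod_cast G.hm

lemma A_eq : G.A = 10 * (G.n : ℤ) := by simp [A]

lemma A_nonneg : 0 ≤ G.A := by simp [A]

lemma L_nonneg : 0 ≤ G.L := by rw [L_eq]; positivity

@[simp] lemma ctr_i₁ (z T : ℤ) : G.ctr z T G.i₁ = T * G.L := by simp [ctr]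

@[simp] lemma ctr_i₂ (z T : ℤ) : G.ctr z T G.i₂ = z * G.L := by
  simp [ctr, Ne.symm G.ne]

lemma ctr_of_ne (z T : ℤ) {j : Fin d} (h1 : j ≠ G.i₁) (h2 : j ≠ G.i₂) : G.ctr z T j = 0 := by
  simp [ctr, h1, h2]

lemma ctr_time (z T T' : ℤ) {j : Fin d} (h : j ≠ G.i₁) : G.ctr z T j = G.ctr z T' j := by
  simp [ctr, h]

lemma mem_gx {x : V d} : x ∈ G.gx z T ↔ x G.i₁ = T * G.L - (G.m + 1) ∧
    ∀ j, j ≠ G.i₁ → G.ctr z T j - 4 * G.n ≤ x j ∧ x j ≤ G.ctr z T j + 4 * G.n := by
  simp only [gx, mem_rect]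
  refine ⟨fun h => ⟨?_, fun j hj => ?_⟩, fun h j => ?_⟩
  · have := h G.i₁; simp only [if_true] at this; omega
  · have := h j; simp only [if_neg hj] at this; push_cast at this; exact this
  · by_cases hj : j = G.i₁
    · subst hj; simp only [if_true]; omega
    · simp only [if_neg hj]; push_cast; exact h.2 j hj

lemma lay_vertex (he : e ∈ G.lay z T) (hv : v ∈ e) :
    (T * G.L - (G.m + 1) ≤ v G.i₁ ∧ v G.i₁ ≤ T * G.L + G.m) ∧
      ∀ j, j ≠ G.i₁ → G.ctr z T j - (4 * G.n + G.m) ≤ v j ∧
        v j ≤ G.ctr z T j + (4 * G.n + G.m) := by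
  obtain ⟨x, hx, he⟩ := mem_biUnion.1 he
  obtain ⟨h1, h2, h3⟩ := oEdges_vertex he hv
  obtain ⟨g1, g2⟩ := G.mem_gx.1 hx
  simp only [Units.val_one, one_mul] at h2 h3
  exact ⟨by omega, fun j hj => by have := h1 j hj; have := g2 j hj; omega⟩

lemma lay_far (he : e ∈ G.lay z T) : ∃ v ∈ e, T * G.L - G.m ≤ v G.i₁ := by
  obtain ⟨x, hx, he⟩ := mem_biUnion.1 he
  obtain ⟨v, hv, h⟩ := oEdges_far he
  simp only [Units.val_one, one_mul] at h
  have := (G.mem_gx.1 hx).1
  exact ⟨v, hv, by omega⟩

lemma abs_unit_L (σ : ℤˣ) : (z + (σ : ℤ)) * G.L = z * G.L + G.L ∨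
    (z + (σ : ℤ)) * G.L = z * G.L - G.L := by
  rcases Int.units_eq_one_or σ with h | h
  · left; rw [h, Units.val_one]; ring
  · right; rw [h, Units.val_neg, Units.val_one]; ring

lemma mem_rectA : v ∈ G.rectA z T σ ↔ ∀ j,
    (if j = G.i₁ then T * G.L - G.A
      else if j = G.i₂ then min (z * G.L) ((z + (σ : ℤ)) * G.L) - G.A else -G.A) ≤ v j ∧
    v j ≤ (if j = G.i₁ then T * G.L + G.A
      else if j = G.i₂ then max (z * G.L) ((z + (σ : ℤ)) * G.L) + G.A else G.A) :=
  mem_rect

lemma tube_vertex (he : e ∈ G.tube z T σ) (hv : v ∈ e) :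
    (T * G.L - G.A ≤ v G.i₁ ∧ v G.i₁ ≤ (T + 1) * G.L - (G.m + 1)) ∧
      (z * G.L - (G.L + G.A) ≤ v G.i₂ ∧ v G.i₂ ≤ z * G.L + (G.L + G.A)) ∧
      ∀ j, j ≠ G.i₁ → j ≠ G.i₂ → -G.A ≤ v j ∧ v j ≤ G.A := by
  have hL := G.forty_n_le_L
  have hn := G.n_bound
  have hA := G.A_eq
  have hs := G.abs_unit_L (z := z) σ
  have hT : (T + 1) * G.L = T * G.L + G.L := by ring
  rcases mem_union.1 (mem_of_mem_inEdges he hv) with h | h
  · refine ⟨?_, ?_, fun j h1 h2 => ?_⟩
    · have := G.mem_rectA.1 h G.i₁; simp only [if_true] at this; omega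
    · have := G.mem_rectA.1 h G.i₂
      simp only [if_neg (Ne.symm G.ne), if_true] at this; omega
    · have := G.mem_rectA.1 h j; simp only [if_neg h1, if_neg h2] at this; exact this
  · refine ⟨?_, ?_, fun j h1 h2 => ?_⟩
    · have := mem_rect.1 h G.i₁; simp only [if_true] at this; omega
    · have := mem_rect.1 h G.i₂
      simp only [if_neg (Ne.symm G.ne), ctr_i₂] at this; omega
    · have := mem_rect.1 h j
      simp only [if_neg h1, G.ctr_of_ne _ _ h1 h2] at this; omega

lemma ball_subset_tube : G.ball z T ⊆ G.tube z T σ := by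
  refine inEdges_mono fun v hv => mem_union_left _ (G.mem_rectA.2 fun j => ?_)
  have := mem_rect.1 hv j
  by_cases h1 : j = G.i₁
  · subst h1; simp only [ctr_i₁, if_true] at this ⊢; omega
  by_cases h2 : j = G.i₂
  · subst h2; simp only [ctr_i₂, if_neg h1, if_true] at this ⊢; omega
  · simp only [G.ctr_of_ne z T h1 h2, if_neg h1, if_neg h2] at this ⊢; omega

lemma lay_subset_ball : G.lay z T ⊆ G.ball z T := by
  have hn := G.n_bound
  have hA := G.A_eq
  intro e he
  obtain ⟨x, hx, he'⟩ := mem_biUnion.1 he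
  refine oEdges_subset_inEdges (fun v h1 h2 h3 => mem_rect.2 fun j => ?_) he'
  obtain ⟨g1, g2⟩ := G.mem_gx.1 hx
  simp only [Units.val_one, one_mul] at h2 h3
  by_cases hj : j = G.i₁
  · subst hj; simp only [ctr_i₁]; omega
  · have := h1 j hj; have := g2 j hj; omega

lemma lay_subset_tube : G.lay z T ⊆ G.tube z T σ := G.lay_subset_ball.trans G.ball_subset_tube

lemma lay_subset_gs : G.lay z T ⊆ G.gs z T σ := by
  classical
  intro e he
  exact mem_filter.2 ⟨G.lay_subset_tube he, z, he⟩

lemma gs_subset_tube : G.gs z T σ ⊆ G.tube z T σ := by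
  classical
  exact filter_subset _ _

lemma mem_half : e ∈ G.half U T ↔ e ∈ U ∧ ∃ v ∈ e, v G.i₁ < T * G.L - G.A := by
  classical
  simp [half]

lemma mem_rev : e ∈ G.rev U T ↔
    e ∈ U ∧ ((∃ v ∈ e, v G.i₁ < T * G.L - G.A) ∨ ∃ z', e ∈ G.lay z' T) := by
  classical
  simp [rev, half, and_or_left]

lemma rev_subset : G.rev U T ⊆ U := fun _ he => (G.mem_rev.1 he).1

lemma tube_inter_rev (hU : G.tube z T σ ⊆ U) : G.tube z T σ ∩ G.rev U T = G.gs z T σ := by
  classical
  ext e
  simp only [mem_inter, gs, mem_filter, mem_rev]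
  refine ⟨fun ⟨he, _, h⟩ => ⟨he, ?_⟩, fun ⟨he, h⟩ => ⟨he, hU he, Or.inr h⟩⟩
  rcases h with ⟨v, hv, h⟩ | h
  · have := (G.tube_vertex he hv).1
    omega
  · exact h

lemma mul_L_mono {S T : ℤ} (h : S ≤ T) : S * G.L ≤ T * G.L :=
  mul_le_mul_of_nonneg_right h G.L_nonneg

lemma half_mono {T' : ℤ} (h : T ≤ T') : G.half U T ⊆ G.half U T' := fun e he => by
  obtain ⟨he, v, hv, hlt⟩ := G.mem_half.1 he
  exact G.mem_half.2 ⟨he, v, hv, by have := G.mul_L_mono h; omega⟩

lemma rev_subset_half_succ : G.rev U T ⊆ G.half U (T + 1) := fun e he => by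
  have hL := G.forty_n_le_L
  have hn := G.n_bound
  have hA := G.A_eq
  have hT : (T + 1) * G.L = T * G.L + G.L := by ring
  obtain ⟨he, ⟨v, hv, h⟩ | ⟨w, hw⟩⟩ := G.mem_rev.1 he
  · exact G.mem_half.2 ⟨he, v, hv, by omega⟩
  · induction e using Sym2.ind with
    | h a b =>
      have := (G.lay_vertex hw (Sym2.mem_mk_left a b)).1
      exact G.mem_half.2 ⟨he, a, Sym2.mem_mk_left a b, by omega⟩

lemma rev_subset_half {T' : ℤ} (h : T + 1 ≤ T') : G.rev U T ⊆ G.half U T' :=
  G.rev_subset_half_succ.trans (G.half_mono h)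

lemma half_subset_rev : G.half U T ⊆ G.rev U T := by
  classical
  exact subset_union_left

lemma rev_subset_rev_succ : G.rev U T ⊆ G.rev U (T + 1) :=
  G.rev_subset_half_succ.trans G.half_subset_rev

lemma rev_subset_reg_succ : G.rev U T ⊆ G.reg U z' (T + 1) :=
  G.rev_subset_rev_succ.trans subset_union_left

lemma tube_subset_reg (hU : G.tube z T σ ⊆ U) :
    G.tube z T σ ⊆ G.reg U (z + (σ : ℤ)) (T + 1) := by
  classical
  have hL := G.forty_n_le_L
  have hn := G.n_bound
  have hA := G.A_eq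
  have hT : (T + 1) * G.L = T * G.L + G.L := by ring
  intro e he
  by_cases hlow : ∃ v ∈ e, v G.i₁ < (T + 1) * G.L - G.A
  · exact mem_union_left _ (G.half_subset_rev (G.mem_half.2 ⟨hU he, hlow⟩))
  · refine mem_union_right _ ?_
    induction e using Sym2.ind with
    | h a b =>
      have key : ∀ v ∈ s(a, b), v ∈ rect (fun j => G.ctr (z + (σ : ℤ)) (T + 1) j - G.A)
          (fun j => G.ctr (z + (σ : ℤ)) (T + 1) j + G.A) := by
        intro v hv
        have hge : (T + 1) * G.L - G.A ≤ v G.i₁ := not_lt.1 fun h => hlow ⟨v, hv, h⟩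
        have h1 := (G.tube_vertex he hv).1
        rcases mem_union.1 (mem_of_mem_inEdges he hv) with h | h
        · have := G.mem_rectA.1 h G.i₁
          simp only [if_true] at this
          omega
        · refine mem_rect.2 fun j => ?_
          have := mem_rect.1 h j
          by_cases hj : j = G.i₁
          · subst hj; simp only [ctr_i₁]; omega
          · simp only [if_neg hj, G.ctr_time _ T (T + 1) hj] at this; exact this
      exact mem_inEdges.2 ⟨(mem_inEdges.1 he).1, key a (Sym2.mem_mk_left a b),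
        key b (Sym2.mem_mk_right a b)⟩

lemma tube_subset_half {T' : ℤ} (h : T + 2 ≤ T') (hU : G.tube z T σ ⊆ U) :
    G.tube z T σ ⊆ G.half U T' := fun e he => by
  have hL := G.forty_n_le_L
  have hn := G.n_bound
  have hA := G.A_eq
  have h2 := G.mul_L_mono h
  have hT : (T + 1) * G.L = T * G.L + G.L := by ring
  have hT2 : (T + 2) * G.L = T * G.L + 2 * G.L := by ring
  induction e using Sym2.ind with
  | h a b =>
    have := (G.tube_vertex he (Sym2.mem_mk_left a b)).1
    exact G.mem_half.2 ⟨hU he, a, Sym2.mem_mk_left a b, by omega⟩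

lemma ball_subset_half {T' : ℤ} (h : T + 1 ≤ T') (hU : G.ball z T ⊆ U) :
    G.ball z T ⊆ G.half U T' := fun e he => by
  have hL := G.forty_n_le_L
  have hn := G.n_bound
  have hA := G.A_eq
  have h2 := G.mul_L_mono h
  have hT : (T + 1) * G.L = T * G.L + G.L := by ring
  induction e using Sym2.ind with
  | h a b =>
    have := mem_rect.1 (mem_of_mem_inEdges he (Sym2.mem_mk_left a b)) G.i₁
    simp only [ctr_i₁] at this
    exact G.mem_half.2 ⟨hU he, a, Sym2.mem_mk_left a b, by omega⟩

lemma lay_subset_half {T' : ℤ} (h : T + 1 ≤ T') (hU : G.lay z T ⊆ U) :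
    G.lay z T ⊆ G.half U T' := fun e he => by
  have hL := G.forty_n_le_L
  have hn := G.n_bound
  have hA := G.A_eq
  have h2 := G.mul_L_mono h
  have hT : (T + 1) * G.L = T * G.L + G.L := by ring
  induction e using Sym2.ind with
  | h a b =>
    have := (G.lay_vertex he (Sym2.mem_mk_left a b)).1
    exact G.mem_half.2 ⟨hU he, a, Sym2.mem_mk_left a b, by omega⟩

lemma gs_subset_half {T' : ℤ} (h : T + 1 ≤ T') (hU : G.gs z T σ ⊆ U) :
    G.gs z T σ ⊆ G.half U T' := by
  classical
  intro e he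
  have hL := G.forty_n_le_L
  have hn := G.n_bound
  have hA := G.A_eq
  have h2 := G.mul_L_mono h
  have hT : (T + 1) * G.L = T * G.L + G.L := by ring
  obtain ⟨-, w, hw⟩ := mem_filter.1 he
  induction e using Sym2.ind with
  | h a b =>
    have := (G.lay_vertex hw (Sym2.mem_mk_left a b)).1
    exact G.mem_half.2 ⟨hU he, a, Sym2.mem_mk_left a b, by omega⟩

/-- A seed edge of the next time is neither in a tube of this time nor revealed before it. -/
lemma next_layer_notMem (he : e ∈ G.lay z' (T + 1)) :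
    e ∉ G.tube z T σ ∧ e ∉ G.rev U T := by
  have hL := G.forty_n_le_L
  have hn := G.n_bound
  have hA := G.A_eq
  have hT : (T + 1) * G.L = T * G.L + G.L := by ring
  obtain ⟨u, hu, hfar⟩ := G.lay_far he
  refine ⟨fun h => ?_, fun h => ?_⟩
  · have := (G.tube_vertex h hu).1
    omega
  · obtain ⟨-, ⟨v, hv, hlt⟩ | ⟨w, hw⟩⟩ := G.mem_rev.1 h
    · have := (G.lay_vertex he hv).1
      omega
    · have := (G.lay_vertex hw hu).1
      omega

lemma disjoint_lay_succ :
    Disjoint (G.lay z' (T + 1)) (G.tube z T σ ∪ G.rev U T) :=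
  disjoint_left.2 fun _ he h =>
    (mem_union.1 h).elim (G.next_layer_notMem (z := z) (σ := σ) (U := U) he).1
      (G.next_layer_notMem (z := z) (σ := σ) (U := U) he).2

lemma disjoint_gs_succ {σ' : ℤˣ} :
    Disjoint (G.gs z' (T + 1) σ') (G.tube z T σ ∪ G.rev U T) := by
  classical
  refine disjoint_left.2 fun e he h => ?_
  obtain ⟨-, w, hw⟩ := mem_filter.1 he
  exact (mem_union.1 h).elim (G.next_layer_notMem (z := z) (σ := σ) (U := U) hw).1
    (G.next_layer_notMem (z := z) (σ := σ) (U := U) hw).2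

/-- The coordinates read by the failures of a cell. -/
noncomputable def supp (z T : ℤ) : Finset (Sym2 (V d)) :=
  (G.tube z T 1 ∪ G.tube z T (-1)) ∪
    ((G.gs (z + 1) (T + 1) 1 ∪ G.gs (z + 1) (T + 1) (-1)) ∪
      (G.gs (z - 1) (T + 1) 1 ∪ G.gs (z - 1) (T + 1) (-1)))

lemma tube_subset_supp : G.tube z T σ ⊆ G.supp z T := by
  rcases Int.units_eq_one_or σ with rfl | rfl
  · exact subset_union_left.trans subset_union_left
  · exact subset_union_right.trans subset_union_left

lemma gs_succ_subset_supp : G.gs (z + 1) (T + 1) σ ⊆ G.supp z T := by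
  rcases Int.units_eq_one_or σ with rfl | rfl
  · exact subset_union_left.trans (subset_union_left.trans subset_union_right)
  · exact subset_union_right.trans (subset_union_left.trans subset_union_right)

lemma gs_pred_subset_supp : G.gs (z - 1) (T + 1) σ ⊆ G.supp z T := by
  rcases Int.units_eq_one_or σ with rfl | rfl
  · exact subset_union_left.trans (subset_union_right.trans subset_union_right)
  · exact subset_union_right.trans (subset_union_right.trans subset_union_right)

lemma gs_subset_supp {σ' : ℤˣ} : G.gs (z + (σ : ℤ)) (T + 1) σ' ⊆ G.supp z T := by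
  rcases Int.units_eq_one_or σ with rfl | rfl
  · exact G.gs_succ_subset_supp
  · rw [Units.val_neg, Units.val_one, ← sub_eq_add_neg]
    exact G.gs_pred_subset_supp

lemma supp_vertex (he : e ∈ G.supp z T) (hv : v ∈ e) :
    z * G.L - (2 * G.L + G.A) ≤ v G.i₂ ∧ v G.i₂ ≤ z * G.L + (2 * G.L + G.A) := by
  have hL := G.L_nonneg
  have key : ∀ w τ, (w = z ∨ w = z + 1 ∨ w = z - 1) →
      ∀ S, e ∈ G.tube w S τ → z * G.L - (2 * G.L + G.A) ≤ v G.i₂ ∧
        v G.i₂ ≤ z * G.L + (2 * G.L + G.A) := by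
    intro w τ hw S h
    have := (G.tube_vertex h hv).2.1
    have e1 : (z + 1) * G.L = z * G.L + G.L := by ring
    have e2 : (z - 1) * G.L = z * G.L - G.L := by ring
    rcases hw with rfl | rfl | rfl <;> omega
  simp only [supp, mem_union] at he
  rcases he with (h | h) | (h | h) | (h | h)
  · exact key z _ (Or.inl rfl) _ h
  · exact key z _ (Or.inl rfl) _ h
  · exact key _ _ (Or.inr (Or.inl rfl)) _ (G.gs_subset_tube h)
  · exact key _ _ (Or.inr (Or.inl rfl)) _ (G.gs_subset_tube h)
  · exact key _ _ (Or.inr (Or.inr rfl)) _ (G.gs_subset_tube h)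
  · exact key _ _ (Or.inr (Or.inr rfl)) _ (G.gs_subset_tube h)

lemma disjoint_supp (h : 6 ≤ |z - z'|) : Disjoint (G.supp z T) (G.supp z' T) := by
  refine disjoint_left.2 fun e h1 h2 => ?_
  have hL := G.forty_n_le_L
  have hn := G.n_bound
  have hA := G.A_eq
  induction e using Sym2.ind with
  | h a b =>
    have a1 := G.supp_vertex h1 (Sym2.mem_mk_left a b)
    have a2 := G.supp_vertex h2 (Sym2.mem_mk_left a b)
    rcases le_abs.1 h with h | h
    · have := G.mul_L_mono h
      rw [sub_mul] at this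
      omega
    · have := G.mul_L_mono h
      rw [neg_sub, sub_mul] at this
      omega

lemma supp_subset_half {T' : ℤ} (h : T + 2 ≤ T') (hU : G.supp z T ⊆ U) :
    G.supp z T ⊆ G.half U T' := by
  intro e he
  have hg : ∀ w τ, G.gs w (T + 1) τ ⊆ G.supp z T → e ∈ G.gs w (T + 1) τ → e ∈ G.half U T' :=
    fun w τ hsub h' => G.gs_subset_half (by omega) (hsub.trans hU) h'
  have ht : ∀ τ, G.tube z T τ ⊆ U := fun τ => G.tube_subset_supp.trans hU
  have he' := he
  simp only [supp, mem_union] at he'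
  rcases he' with (h' | h') | (h' | h') | (h' | h')
  · exact G.tube_subset_half h (ht _) h'
  · exact G.tube_subset_half h (ht _) h'
  · exact hg _ _ G.gs_succ_subset_supp h'
  · exact hg _ _ G.gs_succ_subset_supp h'
  · exact hg _ _ G.gs_pred_subset_supp h'
  · exact hg _ _ G.gs_pred_subset_supp h'

lemma origin_mem_gx : move (0 : V d) G.i₁ (-((G.m : ℤ) + 1)) ∈ G.gx 0 0 := by
  refine G.mem_gx.2 ⟨by simp, fun j hj => ?_⟩
  rw [move_of_ne _ _ hj]
  by_cases h2 : j = G.i₂
  · subst h2; simp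
  · simp [G.ctr_of_ne 0 0 hj h2]

lemma cen_origin : cen G.m G.i₁ 1 (move (0 : V d) G.i₁ (-((G.m : ℤ) + 1))) = 0 := by
  funext j
  by_cases hj : j = G.i₁
  · subst hj; simp [cen]
  · simp [cen, hj]

lemma cen_notMem_box {N : ℕ} (hN : (N : ℤ) < T * G.L) {x : V d} (hx : x ∈ G.gx z T) :
    cen G.m G.i₁ 1 x ∉ box d N := by
  intro h
  have h1 := (G.mem_gx.1 hx).1
  have := mem_box.1 h G.i₁
  simp only [cen, move_self, Units.val_one, one_mul] at this
  omega

/-- A box radius for all regions of cells up to `M`. -/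
def boxR (M : ℕ) : ℕ := (M + 1) * (G.ell * G.n) + 10 * G.n

lemma boxR_mono {M M' : ℕ} (h : M ≤ M') : G.boxR M ≤ G.boxR M' := by
  simp only [boxR]
  gcongr

lemma tube_subset_box {M : ℕ} (hz : z.natAbs ≤ M) (hT : T.natAbs ≤ M) :
    G.tube z T σ ⊆ inEdges (box d (G.boxR M)) := by
  intro e he
  induction e using Sym2.ind with
  | h a b =>
    have key : ∀ v ∈ s(a, b), v ∈ box d (G.boxR M) := by
      intro v hv
      obtain ⟨h1, h2, h3⟩ := G.tube_vertex he hv
      have hA := G.A_eq
      have hL := G.L_nonneg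
      have hn := G.n_bound
      have hR : ((G.boxR M : ℕ) : ℤ) = (M : ℤ) * G.L + G.L + G.A := by
        simp only [boxR, L, A]; push_cast; ring
      have b1 := G.mul_L_mono (show -(M : ℤ) ≤ T by omega)
      have b2 := G.mul_L_mono (show T ≤ (M : ℤ) by omega)
      have b3 := G.mul_L_mono (show -(M : ℤ) ≤ z by omega)
      have b4 := G.mul_L_mono (show z ≤ (M : ℤ) by omega)
      have e1 : (T + 1) * G.L = T * G.L + G.L := by ring
      have hM : 0 ≤ (M : ℤ) * G.L := mul_nonneg (by omega) hL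
      rw [neg_mul] at b1 b3
      refine mem_box.2 fun j => ?_
      by_cases j1 : j = G.i₁
      · subst j1; omega
      by_cases j2 : j = G.i₂
      · subst j2; omega
      · have := h3 j j1 j2
        omega
    exact mem_inEdges.2 ⟨(mem_inEdges.1 he).1, key a (Sym2.mem_mk_left a b),
      key b (Sym2.mem_mk_right a b)⟩

lemma supp_subset_box {M : ℕ} (hz : z.natAbs ≤ M) (hT : T.natAbs ≤ M) :
    G.supp z T ⊆ inEdges (box d (G.boxR (M + 1))) := by
  intro e he
  simp only [supp, mem_union] at he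
  rcases he with (h | h) | (h | h) | (h | h)
  · exact G.tube_subset_box (by omega) (by omega) h
  · exact G.tube_subset_box (by omega) (by omega) h
  · exact G.tube_subset_box (M := M + 1) (by omega) (by omega) (G.gs_subset_tube h)
  · exact G.tube_subset_box (M := M + 1) (by omega) (by omega) (G.gs_subset_tube h)
  · exact G.tube_subset_box (M := M + 1) (by omega) (by omega) (G.gs_subset_tube h)
  · exact G.tube_subset_box (M := M + 1) (by omega) (by omega) (G.gs_subset_tube h)

lemma gs_subset_box {M : ℕ} (hz : z.natAbs ≤ M) (hT : T.natAbs ≤ M) :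
    G.gs z T σ ⊆ inEdges (box d (G.boxR M)) :=
  G.gs_subset_tube.trans (G.tube_subset_box hz hT)

lemma ball_subset_box {M : ℕ} (hz : z.natAbs ≤ M) (hT : T.natAbs ≤ M) :
    G.ball z T ⊆ inEdges (box d (G.boxR M)) :=
  (G.ball_subset_tube (σ := 1)).trans (G.tube_subset_box hz hT)

lemma lay_subset_box {M : ℕ} (hz : z.natAbs ≤ M) (hT : T.natAbs ≤ M) :
    G.lay z T ⊆ inEdges (box d (G.boxR M)) :=
  G.lay_subset_ball.trans (G.ball_subset_box hz hT)

end Geo

end Vale.Agent.P151.Red
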