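import Vale.Agent.P151.Reduction.Defs
import Vale.Agent.P151.Reduction.Step
import Vale.Agent.P151.Reduction.Geom
import Vale.Agent.P151.Reduction.Contour

/-!
The coarse step: a failure of a bond is unlikely given everything revealed before its time, so
failures of many bonds are rare and the origin reaches arbitrarily far.
-/

open Finset

namespace Vale.Agent.P151.Red

open Vale.Agent.P165 (cl cl_mono)
open Vale.Agent.P151.Fin (ev pr ind)

variable {d : ℕ}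

/-- A family of seeds, one per point, with the facts the coarse step needs. -/
structure CoarseFacts (G : Geo d) (U : Finset (Sym2 (V d))) (z T : ℤ) (σ : ℤˣ) : Prop where
  tube_sub : G.tube z T σ ⊆ U
  rev_inter : G.tube z T σ ∩ G.rev U T = G.gs z T σ
  gs_rev : ∀ τ, G.gs z T τ ⊆ G.rev U T
  lay_gs : G.lay z T ⊆ G.gs z T σ
  lay_gs' : ∀ τ, G.lay (z + (σ : ℤ)) (T + 1) ⊆ G.gs (z + (σ : ℤ)) (T + 1) τ
  gs_sub : ∀ τ, G.gs (z + (σ : ℤ)) (T + 1) τ ⊆ U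
  ball_tube : G.ball z T ⊆ G.tube z T σ
  tube_reg : G.tube z T σ ⊆ G.reg U (z + (σ : ℤ)) (T + 1)
  rev_reg : G.rev U T ⊆ G.reg U (z + (σ : ℤ)) (T + 1)
  gs_disj : ∀ τ, Disjoint (G.gs (z + (σ : ℤ)) (T + 1) τ) (G.tube z T σ ∪ G.rev U T)
  link : ∀ x ∈ G.gx (z + (σ : ℤ)) (T + 1), ∀ ω : Finset (Sym2 (V d)),
    oEdges G.m G.i₁ 1 x ⊆ ω → x ∈ cl {0} ω → cen G.m G.i₁ 1 x ∈ cl {0} ω

namespace Geo

variable (G : Geo d)

/-- The fresh edges of a bond: its tube and the seed layer of its target. -/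
noncomputable def fresh (z T : ℤ) (σ : ℤˣ) : Finset (Sym2 (V d)) :=
  (G.tube z T σ \ G.gs z T σ) ∪
    (G.gs (z + (σ : ℤ)) (T + 1) 1 ∪ G.gs (z + (σ : ℤ)) (T + 1) (-1))

lemma gs_fresh (z T : ℤ) (σ τ : ℤˣ) :
    G.gs (z + (σ : ℤ)) (T + 1) τ ⊆ G.fresh z T σ := by
  rcases Int.units_eq_one_or τ with rfl | rfl
  · exact subset_union_left.trans subset_union_right
  · exact subset_union_right.trans subset_union_right

/-- The bond fails: its source is reached and its target is not. -/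
def Failed (t : ℝ) (K : ℕ) (g : ℝ) (U : Finset (Sym2 (V d))) (z T : ℤ) (σ : ℤˣ)
    (ω : Finset (Sym2 (V d))) : Prop :=
  G.Reached t K g U z T ω ∧ ¬ G.Reached t K g U (z + (σ : ℤ)) (T + 1) ω

variable {G}

lemma good_congr {t : ℝ} {K : ℕ} {g : ℝ} {z T : ℤ} {ω ω' : Finset (Sym2 (V d))} {x : V d}
    (h : ∀ τ, ω ∩ G.gs z T τ = ω' ∩ G.gs z T τ) :
    G.Good t K g z T ω x ↔ G.Good t K g z T ω' x := by
  simp only [Good, h]

/-- A failure is already a failure of the configuration restricted to the revealed part and the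
fresh edges of the bond. -/
lemma failed_local {t : ℝ} {K : ℕ} {g : ℝ} {U : Finset (Sym2 (V d))} {z T : ℤ} {σ : ℤˣ}
    (hF : CoarseFacts G U z T σ) {ω : Finset (Sym2 (V d))}
    (hs : G.Reached t K g U z T ω) (ht : ¬ G.Reached t K g U (z + (σ : ℤ)) (T + 1) ω) :
    G.Failed t K g U z T σ (ω ∩ (G.rev U T ∪ G.fresh z T σ)) := by
  set D := G.rev U T ∪ G.fresh z T σ
  have hgs : ∀ τ, ω ∩ D ∩ G.gs z T τ = ω ∩ G.gs z T τ := fun τ => by
    rw [inter_assoc, inter_eq_right.2 ((hF.gs_rev τ).trans subset_union_left)]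
  have hgs' : ∀ τ, ω ∩ D ∩ G.gs (z + (σ : ℤ)) (T + 1) τ =
      ω ∩ G.gs (z + (σ : ℤ)) (T + 1) τ := fun τ => by
    rw [inter_assoc, inter_eq_right.2 ((G.gs_fresh z T σ τ).trans subset_union_right)]
  have hreg : G.reg U z T ⊆ D := by
    intro e he
    rcases mem_union.1 he with he | he
    · exact mem_union_left _ he
    · have h1 := hF.ball_tube he
      by_cases h2 : e ∈ G.gs z T σ
      · exact mem_union_left _ (hF.gs_rev σ h2)
      · exact mem_union_right _ (mem_union_left _ (mem_sdiff.2 ⟨h1, h2⟩))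
  constructor
  · obtain ⟨x, hx, hO, hgood, hc⟩ := hs
    refine ⟨x, hx, subset_inter hO ?_, (good_congr hgs).2 hgood, ?_⟩
    · intro e he
      exact mem_union_left _ (hF.gs_rev σ (hF.lay_gs (mem_biUnion.2 ⟨x, hx, he⟩)))
    · rwa [inter_assoc, inter_eq_right.2 hreg]
  · rintro ⟨x, hx, hO, hgood, hc⟩
    refine ht ⟨x, hx, hO.trans inter_subset_left, (good_congr hgs').1 hgood, ?_⟩
    exact cl_mono subset_rfl (inter_subset_inter inter_subset_left subset_rfl) hc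

end Geo

/-- Few open seeds are bad for a bond leaving them. -/
lemma bad_open_le {G : Geo d} {t g g₀ : ℝ} {K : ℕ} (h0 : 0 ≤ t) (h1 : t ≤ 1) (hg : 0 < g)
    (z T : ℤ) (σ : ℤˣ) (hlay : G.lay z T ⊆ G.gs z T σ) {x : V d} (hx : x ∈ G.gx z T)
    (hfail : pr (fun _ => t) (G.tube z T σ) (fun η => ¬ Hits (G.gx (z + (σ : ℤ)) (T + 1)) K
      (cl {cen G.m G.i₁ 1 x} (oEdges G.m G.i₁ 1 x ∪ η))) ≤ g₀) :
    pr (fun _ => t) (G.gs z T σ) (fun s => oEdges G.m G.i₁ 1 x ⊆ s ∧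
      g < pr (fun _ => t) (G.tube z T σ \ G.gs z T σ) fun η =>
        ¬ Hits (G.gx (z + (σ : ℤ)) (T + 1)) K (cl {cen G.m G.i₁ 1 x} (s ∪ η))) ≤
      t ^ (oEdges G.m G.i₁ 1 x).card * (g₀ / g) := by
  have hS : G.gs z T σ ⊆ G.tube z T σ := by classical exact filter_subset _ _
  have hOs : oEdges G.m G.i₁ 1 x ⊆ G.gs z T σ :=
    fun e he => hlay (mem_biUnion.2 ⟨x, hx, he⟩)
  have h := bad_seed_le (p := fun _ => t) (fun _ => h0) (fun _ => h1)
    (S := G.gs z T σ) (R := G.tube z T σ \ G.gs z T σ) (cen G.m G.i₁ 1 x)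
    (F := fun C => Hits (G.gx (z + (σ : ℤ)) (T + 1)) K C) (fun C D hCD => hits_mono hCD)
    (s := t ^ (oEdges G.m G.i₁ 1 x).card) (g := g) (g₀ := g₀) disjoint_sdiff hOs
    (by simp) (by rwa [union_sdiff_of_subset hS])
  rw [← mul_div_assoc, le_div_iff₀ hg]
  exact h

/-- An open seed is rarely not good. -/
lemma not_good_le {G : Geo d} {t g g₀ : ℝ} {K : ℕ} (h0 : 0 ≤ t) (h1 : t ≤ 1) (hg : 0 < g)
    (z T : ℤ) {L : Finset (Sym2 (V d))} (hL : ∀ τ, G.gs z T τ ⊆ L)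
    (hlay : ∀ τ, G.lay z T ⊆ G.gs z T τ) {x : V d} (hx : x ∈ G.gx z T)
    (hfail : ∀ σ, pr (fun _ => t) (G.tube z T σ) (fun η => ¬ Hits (G.gx (z + (σ : ℤ)) (T + 1)) K
      (cl {cen G.m G.i₁ 1 x} (oEdges G.m G.i₁ 1 x ∪ η))) ≤ g₀) :
    pr (fun _ => t) L (fun s => oEdges G.m G.i₁ 1 x ⊆ s ∧ ¬ G.Good t K g z T s x) ≤
      2 * (g₀ / g) * t ^ (oEdges G.m G.i₁ 1 x).card := by
  set O := oEdges G.m G.i₁ 1 x
  set Q : ℤˣ → Finset (Sym2 (V d)) → Prop := fun σ s => O ⊆ s ∧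
    g < pr (fun _ => t) (G.tube z T σ \ G.gs z T σ) fun η =>
      ¬ Hits (G.gx (z + (σ : ℤ)) (T + 1)) K (cl {cen G.m G.i₁ 1 x} (s ∪ η))
  have hm : ∀ σ, pr (fun _ => t) L (fun s => Q σ (s ∩ G.gs z T σ)) ≤
      t ^ O.card * (g₀ / g) := fun σ =>
    (Fin.ev_marginal (hL σ) fun s => ind (Q σ s)).trans_le
      (bad_open_le h0 h1 hg z T σ (hlay σ) hx (hfail σ))
  refine le_trans ?_ (le_of_eq_of_le (b := t ^ O.card * (g₀ / g) + t ^ O.card * (g₀ / g)) rfl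
    (by linarith))
  refine le_trans ?_ (add_le_add (hm 1) (hm (-1)))
  rw [pr, pr, pr, ← Fin.ev_add]
  refine Fin.ev_mono (fun _ => h0) (fun _ => h1) fun s _ => ?_
  by_cases hq : O ⊆ s ∧ ¬ G.Good t K g z T s x
  · obtain ⟨ho, hng⟩ := hq
    rw [Fin.ind_true ⟨ho, hng⟩]
    obtain ⟨σ, hσ⟩ : ∃ σ, Q σ (s ∩ G.gs z T σ) := by
      simp only [Geo.Good, not_forall, not_le] at hng
      obtain ⟨σ, hσ⟩ := hng
      exact ⟨σ, subset_inter ho fun e he => hlay σ (mem_biUnion.2 ⟨x, hx, he⟩), hσ⟩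
    rcases Int.units_eq_one_or σ with rfl | rfl
    · rw [Fin.ind_true hσ]; linarith [Fin.ind_nonneg (Q (-1) (s ∩ G.gs z T (-1)))]
    · rw [Fin.ind_true hσ]; linarith [Fin.ind_nonneg (Q 1 (s ∩ G.gs z T 1))]
  · rw [Fin.ind_false hq]
    exact add_nonneg (Fin.ind_nonneg _) (Fin.ind_nonneg _)

/-- A bond fails with small probability, whatever was revealed before. -/
lemma failed_le {G : Geo d} {t g g₀ δ : ℝ} {K K' : ℕ} (h0 : 0 < t) (h1 : t ≤ 1) (hg : 0 < g)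
    (hg₀ : 0 ≤ g₀) (hK' : 0 < K') (hK : K' * sepC d G.m ≤ K)
    (hδ : 4 / (t ^ (oEdges G.m G.i₁ 1 0).card * K') ≤ δ)
    {U : Finset (Sym2 (V d))} {z T : ℤ} {σ : ℤˣ} (hF : CoarseFacts G U z T σ)
    (hfail : ∀ τ, ∀ x ∈ G.gx (z + (σ : ℤ)) (T + 1),
      pr (fun _ => t) (G.tube (z + (σ : ℤ)) (T + 1) τ) (fun η =>
        ¬ Hits (G.gx (z + (σ : ℤ) + (τ : ℤ)) (T + 1 + 1)) K
          (cl {cen G.m G.i₁ 1 x} (oEdges G.m G.i₁ 1 x ∪ η))) ≤ g₀)
    {s : Finset (Sym2 (V d))} (hs : s ⊆ G.rev U T) :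
    pr (fun _ => t) (G.fresh z T σ) (fun η => G.Failed t K g U z T σ (s ∪ η)) ≤
      g + (4 * (g₀ / g) + δ) := by
  classical
  set p : Sym2 (V d) → ℝ := fun _ => t
  have p0 : ∀ e, 0 ≤ p e := fun _ => h0.le
  have p1 : ∀ e, p e ≤ 1 := fun _ => h1
  set z' := z + (σ : ℤ)
  set T' := T + 1
  set R₁ := G.tube z T σ \ G.gs z T σ with hR₁
  set R₂ := G.gs z' T' 1 ∪ G.gs z' T' (-1) with hR₂
  have hR₂d : Disjoint R₂ (G.tube z T σ ∪ G.rev U T) :=
    disjoint_union_left.2 ⟨hF.gs_disj 1, hF.gs_disj (-1)⟩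
  have hd12 : Disjoint R₁ R₂ :=
    (hR₂d.mono_right (sdiff_subset.trans subset_union_left)).symm
  have hd1 : ∀ e ∈ R₁, e ∉ G.rev U T := fun e he hr => by
    rw [hR₁, mem_sdiff] at he
    exact he.2 (hF.rev_inter ▸ mem_inter.2 ⟨he.1, hr⟩)
  set B : Finset (V d) := ((G.gx z T).filter fun x =>
    oEdges G.m G.i₁ 1 x ⊆ s ∧ G.Good t K g z T s x).image (cen G.m G.i₁ 1)
  set F : Set (V d) → Prop := fun C => Hits (G.gx z' T') K C
  set δ' := 4 * (g₀ / g) + δ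
  have hδ0 : 0 ≤ δ := le_trans (by positivity) hδ
  -- given the tube, all open seeds at many contacts are rarely bad
  have inner : ∀ η₁, η₁ ⊆ R₁ → F (cl {0} (s ∪ η₁)) →
      pr p R₂ (fun η₂ => G.Failed t K g U z T σ (s ∪ (η₁ ∪ η₂))) ≤ δ' := by
    intro η₁ hη₁ hit
    obtain ⟨Y₀, hY₀, hYc, hYK⟩ := hit
    obtain ⟨Y, hY, hYcard, hYd⟩ := exists_separated G.m G.i₁ 1 Y₀
    have hK'Y : K' ≤ Y.card := Nat.le_of_mul_le_mul_right (hK.trans (hYK.trans hYcard))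
      (Nat.pow_pos (Nat.succ_pos _))
    have hLsub : ∀ τ, G.gs z' T' τ ⊆ R₂ := fun τ => by
      rcases Int.units_eq_one_or τ with rfl | rfl
      · exact subset_union_left
      · exact subset_union_right
    have hxg : ∀ x ∈ Y, x ∈ G.gx z' T' := fun x hx => hY₀ (hY hx)
    have hOR : ∀ x ∈ Y, oEdges G.m G.i₁ 1 x ⊆ R₂ := fun x hx e he =>
      hLsub 1 (hF.lay_gs' 1 (mem_biUnion.2 ⟨x, hxg x hx, he⟩))
    have hprod : ∀ x ∈ Y, ∏ e ∈ oEdges G.m G.i₁ 1 x, p e = t ^ (oEdges G.m G.i₁ 1 0).card :=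
      fun x _ => by simp [p, oEdges_card G.m G.i₁ G.i₁ 1 1 x 0]
    have hbad : ∀ x ∈ Y, pr p R₂ (fun η => oEdges G.m G.i₁ 1 x ⊆ η ∧
        ¬ G.Good t K g z' T' η x) ≤ 2 * (g₀ / g) * t ^ (oEdges G.m G.i₁ 1 0).card := fun x hx => by
      have := not_good_le h0.le h1 hg z' T' hLsub hF.lay_gs' (hxg x hx)
        (fun τ => hfail τ x (hxg x hx))
      rwa [oEdges_card G.m G.i₁ G.i₁ 1 1 x 0] at this
    have hng := no_good_seed (p := p) p0 p1 Y (oEdges G.m G.i₁ 1) (L := R₂)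
      (Bad := fun x η => ¬ G.Good t K g z' T' η x) (b := 2 * (g₀ / g))
      (s := t ^ (oEdges G.m G.i₁ 1 0).card) (pow_pos h0 _) hK' hK'Y hYd hOR hprod hbad
    refine le_trans (Fin.pr_mono p0 p1 fun η₂ hη₂ hfl => ?_) (hng.trans (by linarith))
    intro x hx hO hgood
    refine hfl.2 ⟨x, hxg x hx, hO.trans (subset_union_right.trans subset_union_right), ?_, ?_⟩
    · refine (Geo.good_congr fun τ => ?_).2 hgood
      ext e
      simp only [mem_inter, mem_union]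
      constructor
      · rintro ⟨he | he | he, hg'⟩
        · exact absurd (mem_union_right _ (hs he)) (disjoint_left.1 hR₂d (hLsub τ hg'))
        · exact absurd (mem_union_left _ (sdiff_subset (hη₁ he)))
            (disjoint_left.1 hR₂d (hLsub τ hg'))
        · exact ⟨he, hg'⟩
      · exact fun he => ⟨Or.inr (Or.inr he.1), he.2⟩
    · have hsub : s ∪ η₁ ∪ oEdges G.m G.i₁ 1 x ⊆
          (s ∪ (η₁ ∪ η₂)) ∩ G.reg U z' T' := by
        refine subset_inter ?_ ?_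
        · exact union_subset (union_subset_union_right subset_union_left)
            (hO.trans (subset_union_right.trans subset_union_right))
        · refine union_subset (union_subset (hs.trans hF.rev_reg)
            ((hη₁.trans sdiff_subset).trans hF.tube_reg)) fun e he => ?_
          refine mem_union_left _ (mem_union_right _ (mem_filter.2 ⟨?_, z', ?_⟩))
          · exact hF.gs_sub 1 (hF.lay_gs' 1 (mem_biUnion.2 ⟨x, hxg x hx, he⟩))
          · exact mem_biUnion.2 ⟨x, hxg x hx, he⟩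
      refine cl_mono subset_rfl hsub (hF.link x (hxg x hx) _ subset_union_right ?_)
      exact cl_mono subset_rfl subset_union_left (hYc (hY hx))
  -- a reached source is joined to a good seed
  have hsrc : ∀ η₁, η₁ ⊆ R₁ → ∀ η₂, η₂ ⊆ R₂ → G.Failed t K g U z T σ (s ∪ (η₁ ∪ η₂)) →
      0 ∈ cl (B : Set (V d)) (s ∪ η₁) := by
    intro η₁ hη₁ η₂ hη₂ hfl
    obtain ⟨x, hx, hO, hgood, hc⟩ := hfl.1
    have hcut : ∀ e, e ∈ s ∪ (η₁ ∪ η₂) → e ∈ G.tube z T σ ∪ G.rev U T → e ∈ s ∪ η₁ := by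
      intro e he h'
      rcases mem_union.1 he with he | he
      · exact mem_union_left _ he
      · rcases mem_union.1 he with he | he
        · exact mem_union_right _ he
        · exact absurd h' (disjoint_left.1 hR₂d (hη₂ he))
    have hcuts : ∀ e, e ∈ s ∪ (η₁ ∪ η₂) → e ∈ G.rev U T → e ∈ s := by
      intro e he h'
      rcases mem_union.1 (hcut e he (mem_union_right _ h')) with he | he
      · exact he
      · exact absurd h' (hd1 e (hη₁ he))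
    have hxB : cen G.m G.i₁ 1 x ∈ B := by
      refine mem_image_of_mem _ (mem_filter.2 ⟨hx, fun e he => ?_, ?_⟩)
      · exact hcuts e (hO he) (hF.gs_rev σ (hF.lay_gs (mem_biUnion.2 ⟨x, hx, he⟩)))
      · refine (Geo.good_congr fun τ => ?_).1 hgood
        ext e
        simp only [mem_inter]
        exact ⟨fun he => ⟨hcuts e he.1 (hF.gs_rev τ he.2), he.2⟩,
          fun he => ⟨mem_union_left _ he.1, he.2⟩⟩
    have hc' : cen G.m G.i₁ 1 x ∈ cl {0} (s ∪ η₁) := by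
      refine cl_mono subset_rfl (fun e he => ?_) hc
      rw [mem_inter] at he
      refine hcut e he.1 ?_
      rcases mem_union.1 he.2 with h' | h'
      · exact mem_union_right _ h'
      · exact mem_union_left _ (hF.ball_tube h')
    obtain ⟨y, rfl, hr⟩ := hc'
    exact ⟨_, hxB, hr.symm⟩
  have hquen : pr p R₁ (fun η => 0 ∈ cl (B : Set (V d)) (s ∪ η) ∧ ¬ F (cl {0} (s ∪ η))) ≤ g := by
    refine quenched_le_of_subset p0 p1 (σ₁ := s ∩ G.gs z T σ) inter_subset_left R₁ 0 B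
      (fun C D hCD => hits_mono hCD) hg.le ?_
    intro u hu
    obtain ⟨x, hx, rfl⟩ := mem_image.1 hu
    exact (mem_filter.1 hx).2.2 σ
  unfold Geo.fresh
  rw [pr, Fin.ev_split hd12]
  refine le_trans (Fin.ev_mono p0 p1 (g := fun η₁ =>
    ind (0 ∈ cl (B : Set (V d)) (s ∪ η₁) ∧ ¬ F (cl {0} (s ∪ η₁))) + δ') fun η₁ hη₁ => ?_) ?_
  · by_cases hit : F (cl {0} (s ∪ η₁))
    · exact (inner η₁ hη₁ hit).trans (le_add_of_nonneg_left (Fin.ind_nonneg _))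
    · by_cases hsB : 0 ∈ cl (B : Set (V d)) (s ∪ η₁)
      · rw [Fin.ind_true ⟨hsB, hit⟩]
        exact le_trans (Fin.pr_le_one p0 p1 _) (le_add_of_nonneg_right (by positivity))
      · refine le_trans (le_trans (Fin.ev_mono p0 p1 (g := fun _ => (0 : ℝ)) fun η₂ hη₂ => ?_)
          (Fin.ev_const 0).le) (add_nonneg (Fin.ind_nonneg _) (by positivity))
        rw [Fin.ind_false fun hfl => hsB (hsrc η₁ hη₁ η₂ hη₂ hfl)]
  · rw [Fin.ev_add, Fin.ev_const]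
    exact add_le_add_left hquen _

/-- A coarse bond as a cell, a time and a sign. -/
def bondSign (b : Reduction.Bond) : ℤˣ := if b.2 then 1 else -1

lemma bond_target (b : Reduction.Bond) :
    Geo.zOf (Reduction.bondTarget b) = Geo.zOf b.1 + (bondSign b : ℤ) ∧
      Geo.tOf (Reduction.bondTarget b) = Geo.tOf b.1 + 1 := by
  obtain ⟨⟨u, v⟩, s⟩ := b
  cases s <;> simp [Reduction.bondTarget, bondSign, Geo.zOf, Geo.tOf] <;> omega

/-- The class of a bond: bonds of one class have disjoint or nested regions. -/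
def bondClass (b : Reduction.Bond) : ℕ × ℕ × Bool :=
  ((Geo.tOf b.1 % 2).toNat, (b.1.1 % 4).toNat, b.2)

/-- A finite window in which the coarse construction up to level `M` lives. -/
structure CoarseWindow (G : Geo d) (M : ℕ) (U : Finset (Sym2 (V d))) : Prop where
  edges : ↑U ⊆ (zd d).edgeSet
  lay₀ : ∀ τ, G.lay 0 0 ⊆ G.gs 0 0 τ
  gs₀ : ∀ τ, G.gs 0 0 τ ⊆ G.rev U 0
  facts : ∀ b : Reduction.Bond, b.1 ∈ Reduction.tri M →
    CoarseFacts G U (Geo.zOf b.1) (Geo.tOf b.1) (bondSign b)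
  gs₀_rev : ∀ b : Reduction.Bond, b.1 ∈ Reduction.tri M →
    ∀ τ, G.gs 0 0 τ ⊆ G.rev U (Geo.tOf b.1)
  sub : ∀ b : Reduction.Bond, b.1 ∈ Reduction.tri M →
    G.rev U (Geo.tOf b.1) ∪ G.fresh (Geo.zOf b.1) (Geo.tOf b.1) (bondSign b) ⊆ U
  disj : ∀ b c : Reduction.Bond, b.1 ∈ Reduction.tri M → c.1 ∈ Reduction.tri M →
    bondClass b = bondClass c → b ≠ c → Geo.tOf b.1 = Geo.tOf c.1 →
    Disjoint (G.fresh (Geo.zOf b.1) (Geo.tOf b.1) (bondSign b))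
      (G.fresh (Geo.zOf c.1) (Geo.tOf c.1) (bondSign c))
  nest : ∀ b c : Reduction.Bond, b.1 ∈ Reduction.tri M → c.1 ∈ Reduction.tri M →
    Geo.tOf b.1 + 2 ≤ Geo.tOf c.1 →
    G.rev U (Geo.tOf b.1) ∪ G.fresh (Geo.zOf b.1) (Geo.tOf b.1) (bondSign b) ⊆
      G.rev U (Geo.tOf c.1)

/-- Every set of bonds below a level fails with geometrically small probability. -/
lemma all_failed_le {G : Geo d} {t g g₀ δ q : ℝ} {K K' : ℕ} (h0 : 0 < t) (h1 : t ≤ 1)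
    (hg : 0 < g) (hg₀ : 0 ≤ g₀) (hK' : 0 < K') (hK : K' * sepC d G.m ≤ K)
    (hδ : 4 / (t ^ (oEdges G.m G.i₁ 1 0).card * K') ≤ δ) (hq0 : 0 ≤ q) (hq1 : q ≤ 1)
    (hh : g + (4 * (g₀ / g) + δ) ≤ q ^ 16)
    (hchain : ∀ z T : ℤ, ∀ τ : ℤˣ, ∀ x ∈ G.gx z T,
      pr (fun _ => t) (G.tube z T τ) (fun η => ¬ Hits (G.gx (z + (τ : ℤ)) (T + 1)) K
        (cl {cen G.m G.i₁ 1 x} (oEdges G.m G.i₁ 1 x ∪ η))) ≤ g₀)
    {U S₀ : Finset (Sym2 (V d))} {E : Finset (Sym2 (V d)) → Prop} {M : ℕ} (hS₀ : S₀ ⊆ U)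
    (hgeo : ∀ b : Reduction.Bond, b.1 ∈ Reduction.tri M →
      CoarseFacts G U (Geo.zOf b.1) (Geo.tOf b.1) (bondSign b) ∧
      S₀ ⊆ G.rev U (Geo.tOf b.1) ∧
      G.rev U (Geo.tOf b.1) ∪ G.fresh (Geo.zOf b.1) (Geo.tOf b.1) (bondSign b) ⊆ U)
    (hdisj : ∀ b c : Reduction.Bond, b.1 ∈ Reduction.tri M → c.1 ∈ Reduction.tri M →
      bondClass b = bondClass c → b ≠ c → Geo.tOf b.1 = Geo.tOf c.1 →
      Disjoint (G.fresh (Geo.zOf b.1) (Geo.tOf b.1) (bondSign b))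
        (G.fresh (Geo.zOf c.1) (Geo.tOf c.1) (bondSign c)))
    (hnest : ∀ b c : Reduction.Bond, b.1 ∈ Reduction.tri M → c.1 ∈ Reduction.tri M →
      Geo.tOf b.1 + 2 ≤ Geo.tOf c.1 →
      G.rev U (Geo.tOf b.1) ∪ G.fresh (Geo.zOf b.1) (Geo.tOf b.1) (bondSign b) ⊆
        G.rev U (Geo.tOf c.1))
    (I : Finset Reduction.Bond) (_hne : I.Nonempty) (hI : ∀ b ∈ I, b.1 ∈ Reduction.tri M) :
    pr (fun _ => t) U (fun ω => E (ω ∩ S₀) ∧ ∀ b ∈ I,
      G.Failed t K g U (Geo.zOf b.1) (Geo.tOf b.1) (bondSign b)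
        (ω ∩ (G.rev U (Geo.tOf b.1) ∪
          G.fresh (Geo.zOf b.1) (Geo.tOf b.1) (bondSign b)))) ≤
      q ^ I.card * pr (fun _ => t) U (fun ω => E (ω ∩ S₀)) := by
  classical
  set h := g + (4 * (g₀ / g) + δ) with hhdef
  have hh0 : 0 ≤ h := by
    have : 0 ≤ δ := le_trans (by positivity) hδ
    positivity
  have tnn : ∀ b ∈ I, 0 ≤ Geo.tOf b.1 := fun b hb => by
    have := (Reduction.mem_tri.1 (hI b hb))
    simp only [Geo.tOf]; omega
  set κ : Finset (ℕ × ℕ × Bool) := range 2 ×ˢ (range 4 ×ˢ univ)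
  have hmap : ∀ b ∈ I, bondClass b ∈ κ := fun b _ => by
    simp [bondClass, κ]; omega
  obtain ⟨k, -, hk⟩ : ∃ k ∈ κ, I.card ≤ 16 * (I.filter fun b => bondClass b = k).card := by
    by_contra hcon
    push Not at hcon
    have hsum := card_eq_sum_card_fiberwise hmap
    have : ∑ k ∈ κ, 16 * (I.filter fun b => bondClass b = k).card < ∑ _k ∈ κ, I.card :=
      sum_lt_sum_of_nonempty (by simp [κ]) hcon
    rw [← mul_sum, ← hsum, sum_const, smul_eq_mul] at this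
    simp [κ] at this
  set J := I.filter fun b => bondClass b = k
  have hJ : ∀ b ∈ J, b ∈ I ∧ bondClass b = k := fun b hb => mem_filter.1 hb
  have step := pr_layers_le (p := fun _ : Sym2 (V d) => t) (U := U) (fun _ => h0.le) (fun _ => h1)
    (fun b : Reduction.Bond => (Geo.tOf b.1).toNat) (fun τ : ℕ => G.rev U τ) S₀
    (fun b => G.fresh (Geo.zOf b.1) (Geo.tOf b.1) (bondSign b)) E
    (fun b => G.Failed t K g U (Geo.zOf b.1) (Geo.tOf b.1) (bondSign b)) hh0 hS₀ J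
    ?_ ?_ ?_ ?_ ?_ ?_ ?_
  · have hE : pr (fun _ => t) S₀ E = pr (fun _ => t) U fun ω => E (ω ∩ S₀) :=
      (Fin.ev_marginal hS₀ _).symm
    rw [hE] at step
    refine le_trans (le_trans (Fin.pr_mono (fun _ => h0.le) (fun _ => h1) ?_) step) ?_
    · intro ω _ hω
      refine ⟨hω.1, fun b hb => ?_⟩
      have hbI := (hJ b hb).1
      simpa [Int.toNat_of_nonneg (tnn b hbI)] using hω.2 b hbI
    · rw [mul_comm (q ^ _)]
      exact mul_le_mul_of_nonneg_left (Reduction.pow_le_pow_class hh0 hq0 hq1 hh hk)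
        (Fin.pr_nonneg (fun _ => h0.le) (fun _ => h1) _)
  · intro b hb
    rw [Int.toNat_of_nonneg (tnn b (hJ b hb).1)]
    exact subset_union_left.trans (hgeo b (hI b (hJ b hb).1)).2.2
  · exact fun b hb => subset_union_right.trans (hgeo b (hI b (hJ b hb).1)).2.2
  · intro b hb
    rw [Int.toNat_of_nonneg (tnn b (hJ b hb).1)]
    exact (hgeo b (hI b (hJ b hb).1)).2.1
  · intro b hb
    rw [Int.toNat_of_nonneg (tnn b (hJ b hb).1)]
    have hF := (hgeo b (hI b (hJ b hb).1)).1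
    refine disjoint_union_right.2 ⟨disjoint_right.2 fun e he hr => ?_, ?_⟩
    · rw [mem_sdiff] at he
      exact he.2 (hF.rev_inter ▸ mem_inter.2 ⟨he.1, hr⟩)
    · exact disjoint_union_right.2 ⟨((hF.gs_disj 1).mono_right subset_union_right).symm,
        ((hF.gs_disj (-1)).mono_right subset_union_right).symm⟩
  · intro b hb c hc hbc hτ
    obtain ⟨hbI, hbk⟩ := hJ b hb
    obtain ⟨hcI, hck⟩ := hJ c hc
    have := tnn b hbI
    have := tnn c hcI
    exact hdisj b c (hI b hbI) (hI c hcI) (hbk.trans hck.symm) hbc (by omega)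
  · intro b hb c hc hlt
    obtain ⟨hbI, hbk⟩ := hJ b hb
    obtain ⟨hcI, hck⟩ := hJ c hc
    have hb0 := tnn b hbI
    have hc0 := tnn c hcI
    rw [Int.toNat_of_nonneg hb0, Int.toNat_of_nonneg hc0]
    refine hnest b c (hI b hbI) (hI c hcI) ?_
    have e := congrArg Prod.fst (hbk.trans hck.symm)
    simp only [bondClass] at e
    omega
  · intro b hb s hs _
    obtain ⟨hbI, -⟩ := hJ b hb
    rw [Int.toNat_of_nonneg (tnn b hbI)] at hs
    exact failed_le h0 h1 hg hg₀ hK' hK hδ (hgeo b (hI b hbI)).1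
      (fun τ x hx => hchain _ _ τ x hx) hs

/-- The origin reaches the level `M` of the coarse lattice. -/
theorem coarse_reach {G : Geo d} {t g g₀ δ : ℝ} {K K' : ℕ} (h0 : 0 < t) (h1 : t ≤ 1) (hg : 0 < g)
    (hg₀ : 0 ≤ g₀) (hK' : 0 < K') (hK : K' * sepC d G.m ≤ K)
    (hδ : 4 / (t ^ (oEdges G.m G.i₁ 1 0).card * K') ≤ δ)
    (hh : g + (4 * (g₀ / g) + δ) ≤ ((1 : ℝ) / 36) ^ 16)
    (hchain : ∀ z T : ℤ, ∀ τ : ℤˣ, ∀ x ∈ G.gx z T,
      pr (fun _ => t) (G.tube z T τ) (fun η => ¬ Hits (G.gx (z + (τ : ℤ)) (T + 1)) K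
        (cl {cen G.m G.i₁ 1 x} (oEdges G.m G.i₁ 1 x ∪ η))) ≤ g₀)
    {U : Finset (Sym2 (V d))} {M : ℕ} {x₀ : V d} (hx₀ : x₀ ∈ G.gx 0 0)
    (hc₀ : cen G.m G.i₁ 1 x₀ = 0)
    (hlay₀ : ∀ τ, G.lay 0 0 ⊆ G.gs 0 0 τ) (hgs₀ : ∀ τ, G.gs 0 0 τ ⊆ G.rev U 0)
    (hgeo : ∀ b : Reduction.Bond, b.1 ∈ Reduction.tri M →
      CoarseFacts G U (Geo.zOf b.1) (Geo.tOf b.1) (bondSign b) ∧
      (∀ τ, G.gs 0 0 τ ⊆ G.rev U (Geo.tOf b.1)) ∧
      G.rev U (Geo.tOf b.1) ∪ G.fresh (Geo.zOf b.1) (Geo.tOf b.1) (bondSign b) ⊆ U)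
    (hdisj : ∀ b c : Reduction.Bond, b.1 ∈ Reduction.tri M → c.1 ∈ Reduction.tri M →
      bondClass b = bondClass c → b ≠ c → Geo.tOf b.1 = Geo.tOf c.1 →
      Disjoint (G.fresh (Geo.zOf b.1) (Geo.tOf b.1) (bondSign b))
        (G.fresh (Geo.zOf c.1) (Geo.tOf c.1) (bondSign c)))
    (hnest : ∀ b c : Reduction.Bond, b.1 ∈ Reduction.tri M → c.1 ∈ Reduction.tri M →
      Geo.tOf b.1 + 2 ≤ Geo.tOf c.1 →
      G.rev U (Geo.tOf b.1) ∪ G.fresh (Geo.zOf b.1) (Geo.tOf b.1) (bondSign b) ⊆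
        G.rev U (Geo.tOf c.1)) :
    t ^ (oEdges G.m G.i₁ 1 x₀).card * (1 - 2 * (g₀ / g)) / 2 ≤
      pr (fun _ => t) U (fun ω => ∃ z : ℤ, ∃ x ∈ G.gx z M, cen G.m G.i₁ 1 x ∈ cl {0} ω) := by
  set p : Sym2 (V d) → ℝ := fun _ => t
  have p0 : ∀ e, 0 ≤ p e := fun _ => h0.le
  have p1 : ∀ e, p e ≤ 1 := fun _ => h1
  set S₀ := G.gs 0 0 1 ∪ G.gs 0 0 (-1)
  have hrevU : ∀ T, G.rev U T ⊆ U := fun T => by
    classical exact union_subset (filter_subset _ _) (filter_subset _ _)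
  have hS₀' : ∀ T, (∀ τ, G.gs 0 0 τ ⊆ G.rev U T) → S₀ ⊆ G.rev U T := fun T h =>
    union_subset (h 1) (h (-1))
  have hS₀ : S₀ ⊆ U := (hS₀' 0 hgs₀).trans (hrevU 0)
  have hsub : ∀ τ, G.gs 0 0 τ ⊆ S₀ := fun τ => by
    rcases Int.units_eq_one_or τ with rfl | rfl
    · exact subset_union_left
    · exact subset_union_right
  set O := oEdges G.m G.i₁ 1 x₀
  have hO : O ⊆ S₀ := fun e he => hsub 1 (hlay₀ 1 (mem_biUnion.2 ⟨x₀, hx₀, he⟩))
  set E : Finset (Sym2 (V d)) → Prop := fun s => O ⊆ s ∧ G.Good t K g 0 0 s x₀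
  have hE : t ^ O.card * (1 - 2 * (g₀ / g)) ≤ pr p U fun ω => E (ω ∩ S₀) := by
    rw [pr, Fin.ev_marginal hS₀ fun s => ind (E s)]
    have hb := not_good_le h0.le h1 hg 0 0 hsub hlay₀ hx₀ (fun τ => hchain 0 0 τ x₀ hx₀)
    have ho := pr_subset (p := p) hO
    have hspl : pr p S₀ (fun s => O ⊆ s) ≤ pr p S₀ E + pr p S₀ (fun s => O ⊆ s ∧
        ¬ G.Good t K g 0 0 s x₀) := by
      rw [pr, pr, pr, ← Fin.ev_add]
      refine Fin.ev_mono p0 p1 fun s _ => ?_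
      by_cases ha : O ⊆ s <;> by_cases hb : G.Good t K g 0 0 s x₀ <;>
        simp [Fin.ind, E, ha, hb]
    simp only [p, prod_const] at ho
    simp only [pr] at hb ho hspl ⊢
    linarith
  have key := Reduction.peierls (p := p) (U := U) p0 p1 (E := fun ω => E (ω ∩ S₀))
    (R := fun a ω => G.Reached t K g U (Geo.zOf a) (Geo.tOf a) ω)
    (bad := fun b ω => G.Failed t K g U (Geo.zOf b.1) (Geo.tOf b.1) (bondSign b)
      (ω ∩ (G.rev U (Geo.tOf b.1) ∪ G.fresh (Geo.zOf b.1) (Geo.tOf b.1) (bondSign b))))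
    (T := M) (q := 1 / 36) (by norm_num) le_rfl ?_ ?_ ?_
  · refine le_trans ?_ (key.trans (Fin.pr_mono p0 p1 ?_))
    · linarith
    · rintro ω - ⟨-, a, -, -, hM, x, hx, -, -, hc⟩
      refine ⟨Geo.zOf a, x, ?_, cl_mono subset_rfl inter_subset_left hc⟩
      rwa [show ((M : ℕ) : ℤ) = Geo.tOf a from hM.symm]
  · rintro ω - ⟨ho, hgood⟩
    refine ⟨x₀, by simpa [Geo.zOf, Geo.tOf] using hx₀, ho.trans inter_subset_left, ?_, ?_⟩
    · refine (Geo.good_congr fun τ => ?_).1 (by simpa [Geo.zOf, Geo.tOf] using hgood)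
      simp only [Geo.zOf, Geo.tOf, add_zero, sub_zero]
      rw [inter_assoc, inter_eq_right.2 (hsub τ)]
    · rw [hc₀]
      exact ⟨0, rfl, .refl _⟩
  · intro b hb ω _ _ hs ht
    obtain ⟨e1, e2⟩ := bond_target b
    simp only [e1, e2] at ht
    exact Geo.failed_local (hgeo b hb).1 hs ht
  · intro I hne hI
    exact all_failed_le h0 h1 hg hg₀ hK' hK hδ (by norm_num) (by norm_num) hh hchain hS₀
      (fun b hb => ⟨(hgeo b hb).1, hS₀' _ (hgeo b hb).2.1, (hgeo b hb).2.2⟩) hdisj hnest I hne hI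

end Vale.Agent.P151.Red
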