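import Vale.Agent.P151.Reduction.Coarse

/-!
A finite window for the coarse construction: a large box has all the required nesting and
disjointness.
-/

open Finset

namespace Vale.Agent.P151.Red

variable {d : ℕ}

namespace Geo

variable (G : Geo d) {z T : ℤ}

lemma fresh_subset_supp (σ : ℤˣ) : G.fresh z T σ ⊆ G.supp z T :=
  union_subset (sdiff_subset.trans G.tube_subset_supp)
    (union_subset G.gs_subset_supp G.gs_subset_supp)

lemma gs_subset_rev {σ : ℤˣ} {U : Finset (Sym2 (V d))} (hU : G.tube z T σ ⊆ U) :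
    G.gs z T σ ⊆ G.rev U T :=
  (G.tube_inter_rev hU).ge.trans inter_subset_right

end Geo

lemma inEdges_subset_edgeSet (X : Finset (V d)) :
    (↑(inEdges X) : Set (Sym2 (V d))) ⊆ (zd d).edgeSet := by
  intro e he
  induction e using Sym2.ind with
  | h a b => exact (mem_inEdges.1 he).1

lemma tri_bounds {M : ℕ} {b : Reduction.Bond} (hb : b.1 ∈ Reduction.tri M) :
    (Geo.zOf b.1).natAbs ≤ M ∧ (Geo.tOf b.1).natAbs ≤ M ∧ 0 ≤ Geo.tOf b.1 := by
  obtain ⟨h1, h2, h3⟩ := Reduction.mem_tri.1 hb
  simp only [Geo.zOf, Geo.tOf]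
  omega

/-- A window exists for every level. -/
theorem exists_coarseWindow (G : Geo d) (M : ℕ) : ∃ U, CoarseWindow G M U := by
  set U := inEdges (box d (G.boxR (M + 2))) with hU
  have htube : ∀ z T : ℤ, ∀ σ, z.natAbs ≤ M + 1 → T.natAbs ≤ M + 1 → G.tube z T σ ⊆ U :=
    fun z T σ hz hT => G.tube_subset_box (by omega) (by omega)
  have hsupp : ∀ z T : ℤ, z.natAbs ≤ M → T.natAbs ≤ M → G.supp z T ⊆ U := fun z T hz hT =>
    (G.supp_subset_box hz hT).trans (inEdges_mono (box_mono (G.boxR_mono (by omega))))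
  refine ⟨U, ⟨inEdges_subset_edgeSet _, fun τ => G.lay_subset_gs,
    fun τ => G.gs_subset_rev (htube 0 0 τ (by simp) (by simp)), fun b hb => ?_, fun b hb τ => ?_,
    fun b hb => ?_, fun b c hb hc hcl hne ht => ?_, fun b c hb hc hlt => ?_⟩⟩
  · obtain ⟨hz, hT, -⟩ := tri_bounds hb
    set z := Geo.zOf b.1
    set T := Geo.tOf b.1
    have hσ : (z + (bondSign b : ℤ)).natAbs ≤ M + 1 := by
      rcases Int.units_eq_one_or (bondSign b) with h | h <;> simp [h] <;> omega
    have ht0 := htube z T (bondSign b) (by omega) (by omega)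
    exact {
      tube_sub := ht0
      rev_inter := G.tube_inter_rev ht0
      gs_rev := fun τ => G.gs_subset_rev (htube z T τ (by omega) (by omega))
      lay_gs := G.lay_subset_gs
      lay_gs' := fun τ => G.lay_subset_gs
      gs_sub := fun τ => G.gs_subset_tube.trans (htube _ _ τ hσ (by omega))
      ball_tube := G.ball_subset_tube
      tube_reg := G.tube_subset_reg ht0
      rev_reg := G.rev_subset_reg_succ
      gs_disj := fun τ => G.disjoint_gs_succ
      link := fun x _ ω hO hx => mem_cl_cen hO hx }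
  · obtain ⟨-, -, h0⟩ := tri_bounds hb
    have ht := htube 0 0 τ (by simp) (by simp)
    rcases h0.eq_or_lt with h | h
    · rw [← h]; exact G.gs_subset_rev ht
    · exact (G.gs_subset_half (by omega) (G.gs_subset_tube.trans ht)).trans G.half_subset_rev
  · obtain ⟨hz, hT, -⟩ := tri_bounds hb
    exact union_subset G.rev_subset ((G.fresh_subset_supp _).trans (hsupp _ _ hz hT))
  · rw [← ht]
    refine (G.disjoint_supp ?_).mono (G.fresh_subset_supp _) (G.fresh_subset_supp _)
    obtain ⟨b1, b2, -⟩ := Reduction.mem_tri.1 hb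
    obtain ⟨c1, c2, -⟩ := Reduction.mem_tri.1 hc
    obtain ⟨⟨u, v⟩, s⟩ := b
    obtain ⟨⟨u', v'⟩, s'⟩ := c
    simp only [bondClass, Geo.tOf, Prod.mk.injEq] at hcl ht b1 b2 c1 c2
    obtain ⟨-, hu, rfl⟩ := hcl
    have hne' : u ≠ u' := fun h => hne (by subst h; rw [show v = v' by omega])
    simp only [Geo.zOf]
    rw [le_abs]
    omega
  · obtain ⟨hz, hT, -⟩ := tri_bounds hb
    exact union_subset ((G.rev_subset_half (by omega)).trans G.half_subset_rev)
      (((G.fresh_subset_supp _).trans (G.supp_subset_half hlt (hsupp _ _ hz hT))).trans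
        G.half_subset_rev)

/-- Contacts at level `M` have their seeds outside every box of radius below `M * L`. -/
theorem cen_notMem_box (G : Geo d) {N M : ℕ} (h : (N : ℤ) < M * G.L) {z : ℤ} {x : V d}
    (hx : x ∈ G.gx z M) : cen G.m G.i₁ 1 x ∉ box d N :=
  G.cen_notMem_box h hx

end Vale.Agent.P151.Red
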