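import Vale.Agent.P151.Base.Lattice
import Vale.Agent.P151.FiniteBasic
import Vale.Agent.P165.Sharp

/-!
Objects of the sprinkling-free renormalisation on `ℤ^d`: seeds, hops, coarse cells, tubes and
the regions revealed up to a coarse time.
-/

open Finset

namespace Vale.Agent.P151.Red

open Vale.Agent.P165 (cl edgesAt)

/-- Points of the lattice. -/
abbrev V (d : ℕ) : Type := Fin d → ℤ

variable {d : ℕ}

/-- Integer points between `lo` and `hi`. -/
noncomputable def rect (lo hi : V d) : Finset (V d) :=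
  Fintype.piFinset fun j => Icc (lo j) (hi j)

lemma mem_rect {lo hi x : V d} : x ∈ rect lo hi ↔ ∀ j, lo j ≤ x j ∧ x j ≤ hi j := by
  simp [rect, Fintype.mem_piFinset]

/-- The cube of radius `r` around `c`. -/
noncomputable def cube (c : V d) (r : ℕ) : Finset (V d) :=
  rect (fun j => c j - r) (fun j => c j + r)

lemma mem_cube {c x : V d} {r : ℕ} : x ∈ cube c r ↔ ∀ j, c j - r ≤ x j ∧ x j ≤ c j + r :=
  mem_rect

lemma self_mem_cube (c : V d) (r : ℕ) : c ∈ cube c r := mem_cube.2 fun j => by omega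

lemma cube_mono (c : V d) {r s : ℕ} (h : r ≤ s) : cube c r ⊆ cube c s := fun x hx =>
  mem_cube.2 fun j => by have := mem_cube.1 hx j; omega

/-- Lattice edges with both ends in `X`. -/
noncomputable def inEdges (X : Finset (V d)) : Finset (Sym2 (V d)) :=
  open scoped Classical in (edgesAt (zd d) X).filter fun e => ∀ v ∈ e, v ∈ X

lemma mem_inEdges {X : Finset (V d)} {x y : V d} :
    s(x, y) ∈ inEdges X ↔ (zd d).Adj x y ∧ x ∈ X ∧ y ∈ X := by
  classical
  simp only [inEdges, edgesAt, mem_filter, mem_biUnion, mem_image,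
    SimpleGraph.mem_neighborFinset, Sym2.mem_iff, Sym2.eq_iff]
  constructor
  · rintro ⟨⟨a, -, b, hab, h⟩, hX⟩
    refine ⟨?_, hX x (Or.inl rfl), hX y (Or.inr rfl)⟩
    rcases h with ⟨rfl, rfl⟩ | ⟨rfl, rfl⟩
    · exact hab
    · exact hab.symm
  · rintro ⟨h, hx, hy⟩
    refine ⟨⟨x, hx, y, h, Or.inl ⟨rfl, rfl⟩⟩, fun v hv => ?_⟩
    rcases hv with rfl | rfl
    · exact hx
    · exact hy

lemma inEdges_mono {X Y : Finset (V d)} (h : X ⊆ Y) : inEdges X ⊆ inEdges Y := by
  intro e
  induction e using Sym2.ind with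
  | h x y =>
    intro he
    obtain ⟨a, b, c⟩ := mem_inEdges.1 he
    exact mem_inEdges.2 ⟨a, h b, h c⟩

/-- `x` moved by `a` along coordinate `i`. -/
def move (x : V d) (i : Fin d) (a : ℤ) : V d := Function.update x i (x i + a)

@[simp] lemma move_self (x : V d) (i : Fin d) (a : ℤ) : move x i a i = x i + a := by simp [move]

@[simp] lemma move_of_ne (x : V d) {i j : Fin d} (a : ℤ) (h : j ≠ i) : move x i a j = x j := by
  simp [move, h]

/-- The edges of the seed centred at `c`. -/
noncomputable def seedE (m : ℕ) (c : V d) : Finset (Sym2 (V d)) := inEdges (cube c m)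

/-- The centre of the seed placed beyond the contact `x` in direction `(i, σ)`. -/
def cen (m : ℕ) (i : Fin d) (σ : ℤˣ) (x : V d) : V d := move x i ((σ : ℤ) * (m + 1))

/-- The seed beyond the contact `x` together with its entry edge. -/
noncomputable def oEdges (m : ℕ) (i : Fin d) (σ : ℤˣ) (x : V d) : Finset (Sym2 (V d)) :=
  insert s(x, move x i (σ : ℤ)) (seedE m (cen m i σ x))

lemma seedE_subset_oEdges (m : ℕ) (i : Fin d) (σ : ℤˣ) (x : V d) :
    seedE m (cen m i σ x) ⊆ oEdges m i σ x := subset_insert _ _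

/-- The piece of the boundary of `cube b n` in direction `(i, s i)` with the signs `s`. -/
noncomputable def piece (n : ℕ) (i : Fin d) (s : Fin d → ℤˣ) (b : V d) : Finset (V d) :=
  open scoped Classical in (cube b n).filter fun x =>
    (s i : ℤ) * (x i - b i) = n ∧ ∀ j, 0 ≤ (s j : ℤ) * (x j - b j)

/-- At least `K` points of `X` lie in `C`. -/
def Hits (X : Finset (V d)) (K : ℕ) (C : Set (V d)) : Prop :=
  ∃ Y : Finset (V d), Y ⊆ X ∧ ↑Y ⊆ C ∧ K ≤ Y.card

lemma hits_mono {X : Finset (V d)} {K : ℕ} {C D : Set (V d)} (h : C ⊆ D) (hC : Hits X K C) :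
    Hits X K D := by
  obtain ⟨Y, a, b, c⟩ := hC
  exact ⟨Y, a, b.trans h, c⟩

lemma hits_subset {X X' : Finset (V d)} {K : ℕ} {C : Set (V d)} (h : X ⊆ X') (hC : Hits X K C) :
    Hits X' K C := by
  obtain ⟨Y, a, b, c⟩ := hC
  exact ⟨Y, a.trans h, b, c⟩

/-- The probability that an open seed at `b` has fewer than `K` contacts on a piece. -/
noncomputable def hopFail (t : ℝ) (m K n : ℕ) (i : Fin d) (s : Fin d → ℤˣ) (b : V d) : ℝ :=
  Fin.pr (fun _ => t) (inEdges (cube b n)) fun η =>
    ¬ Hits (piece n i s b) K (cl {b} (seedE m b ∪ η))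

/-- The local input: from any open seed every piece is reached at `K` points, at all radii
between `n` and `4 n`. -/
def Hop (d : ℕ) (t : ℝ) (m K n : ℕ) (ε : ℝ) : Prop :=
  ∀ r, n ≤ r → r ≤ 4 * n → ∀ (i : Fin d) (s : Fin d → ℤˣ) (b : V d),
    hopFail t m K r i s b ≤ ε

/-- Parameters of the coarse lattice. -/
structure Geo (d : ℕ) where
  /-- the time coordinate -/
  i₁ : Fin d
  /-- the space coordinate -/
  i₂ : Fin d
  /-- seed radius -/
  m : ℕ
  /-- hop radius -/
  n : ℕ
  /-- coarse spacing in units of `n` -/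
  ell : ℕ
  ne : i₁ ≠ i₂
  hm : 2 * (m + 1) ≤ n
  hell : 40 ≤ ell

namespace Geo

variable (G : Geo d)

/-- Coarse spacing. -/
def L : ℤ := (G.ell * G.n : ℕ)

/-- Margin. -/
def A : ℤ := (10 * G.n : ℕ)

/-- The centre of the cell `z` at time `T`. -/
def ctr (z T : ℤ) : V d := fun j =>
  if j = G.i₁ then T * G.L else if j = G.i₂ then z * G.L else 0

/-- The contact plane of a cell: seeds are placed just beyond it. -/
noncomputable def gx (z T : ℤ) : Finset (V d) :=
  rect (fun j => if j = G.i₁ then T * G.L - (G.m + 1) else G.ctr z T j - (4 * G.n : ℕ))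
    (fun j => if j = G.i₁ then T * G.L - (G.m + 1) else G.ctr z T j + (4 * G.n : ℕ))

/-- The seed edges of a cell. -/
noncomputable def lay (z T : ℤ) : Finset (Sym2 (V d)) :=
  (G.gx z T).biUnion (oEdges G.m G.i₁ 1)

/-- Vertices near the source time, between the two space positions. -/
noncomputable def rectA (z T : ℤ) (σ : ℤˣ) : Finset (V d) :=
  rect
    (fun j => if j = G.i₁ then T * G.L - G.A
      else if j = G.i₂ then min (z * G.L) ((z + (σ : ℤ)) * G.L) - G.A else -G.A)
    (fun j => if j = G.i₁ then T * G.L + G.A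
      else if j = G.i₂ then max (z * G.L) ((z + (σ : ℤ)) * G.L) + G.A else G.A)

/-- Vertices above the target position, up to the target contact plane. -/
noncomputable def rectB (z T : ℤ) (σ : ℤˣ) : Finset (V d) :=
  rect (fun j => if j = G.i₁ then T * G.L - G.A else G.ctr (z + (σ : ℤ)) T j - G.A)
    (fun j => if j = G.i₁ then (T + 1) * G.L - (G.m + 1) else G.ctr (z + (σ : ℤ)) T j + G.A)

/-- The tube of a coarse bond. -/
noncomputable def tube (z T : ℤ) (σ : ℤˣ) : Finset (Sym2 (V d)) :=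
  inEdges (G.rectA z T σ ∪ G.rectB z T σ)

/-- The edges around a cell. -/
noncomputable def ball (z T : ℤ) : Finset (Sym2 (V d)) :=
  inEdges (rect (fun j => G.ctr z T j - G.A) (fun j => G.ctr z T j + G.A))

/-- The part of a tube on which goodness of its seeds depends. -/
noncomputable def gs (z T : ℤ) (σ : ℤˣ) : Finset (Sym2 (V d)) :=
  open scoped Classical in (G.tube z T σ).filter fun e => ∃ z', e ∈ G.lay z' T

/-- Edges of `U` with an end before time `T`. -/
noncomputable def half (U : Finset (Sym2 (V d))) (T : ℤ) : Finset (Sym2 (V d)) :=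
  open scoped Classical in U.filter fun e => ∃ v ∈ e, v G.i₁ < T * G.L - G.A

/-- Everything revealed before the hops from time `T` start. -/
noncomputable def rev (U : Finset (Sym2 (V d))) (T : ℤ) : Finset (Sym2 (V d)) :=
  G.half U T ∪ open scoped Classical in U.filter fun e => ∃ z', e ∈ G.lay z' T

/-- The region in which a cell is said to be reached. -/
noncomputable def reg (U : Finset (Sym2 (V d))) (z T : ℤ) : Finset (Sym2 (V d)) :=
  G.rev U T ∪ G.ball z T

/-- A seed is good if, given the seed layer, it nearly surely feeds both next cells. -/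
def Good (t : ℝ) (K : ℕ) (g : ℝ) (z T : ℤ) (ω : Finset (Sym2 (V d))) (x : V d) : Prop :=
  ∀ σ : ℤˣ, Fin.pr (fun _ => t) (G.tube z T σ \ G.gs z T σ) (fun η =>
    ¬ Hits (G.gx (z + (σ : ℤ)) (T + 1)) K
      (cl {cen G.m G.i₁ 1 x} (ω ∩ G.gs z T σ ∪ η))) ≤ g

/-- The cell is reached from the origin: some good open seed of it is connected. -/
def Reached (t : ℝ) (K : ℕ) (g : ℝ) (U : Finset (Sym2 (V d))) (z T : ℤ)
    (ω : Finset (Sym2 (V d))) : Prop :=
  ∃ x ∈ G.gx z T, oEdges G.m G.i₁ 1 x ⊆ ω ∧ G.Good t K g z T ω x ∧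
    cen G.m G.i₁ 1 x ∈ cl {0} (ω ∩ G.reg U z T)

/-- Coordinates on the coarse quadrant: time `u + v`, position `u - v`. -/
def tOf (a : ℤ × ℤ) : ℤ := a.1 + a.2

/-- See `tOf`. -/
def zOf (a : ℤ × ℤ) : ℤ := a.1 - a.2

end Geo

/-- The error after `j` hops. -/
noncomputable def gseq (ε δ : ℝ) : ℕ → ℝ
  | 0 => ε
  | j + 1 => gseq ε δ j + (ε + 3 * Real.sqrt (gseq ε δ j) + δ)

/-- Separated selection costs this factor. -/
def sepC (d m : ℕ) : ℕ := (4 * m + 5) ^ d

end Vale.Agent.P151.Red
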