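import Vale.Agent.P151.Reduction.Defs
import Vale.Agent.P151.Base.Bridge

/-!
Finite connection bounds at every distance give percolation of the origin.
-/

open Finset Filter Topology MeasureTheory ProbabilityTheory
open scoped unitInterval

namespace Vale.Agent.P151.Red

open Vale.Agent.P165 (cl edgesAt trace bondMeasure bond_real_trace cl_le_cluster)

/-- If the origin leaves every box with probability at least `c` inside finite edge sets, it
percolates. -/
theorem theta_pos_of_lower {d : ℕ} (t : I) {c : ℝ} (hc : 0 < c)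
    (h : ∀ N : ℕ, ∃ U : Finset (Sym2 (V d)), ↑U ⊆ (zd d).edgeSet ∧
      c ≤ Fin.pr (fun _ => (t : ℝ)) U fun w => ∃ y, y ∉ box d N ∧ y ∈ cl {0} w) :
    0 < theta d t := by
  have key : ∀ N, c ≤ P165.pr (t : ℝ) (edgesAt (zd d) (box d N))
      (Esc ({0} : Finset (V d)) (box d N)) := by
    intro N
    obtain ⟨U, hU, hcU⟩ := h N
    haveI : IsProbabilityMeasure (bondMeasure (zd d) t) := by unfold bondMeasure; infer_instance
    rw [Fin.pr_eq_uniform, ← bond_real_trace t hU] at hcU
    rw [← escape_real]
    refine hcU.trans (measureReal_mono ?_)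
    rintro ω ⟨y, hy, hyc⟩
    exact ⟨0, mem_singleton_self _, y, hy, cl_le_cluster 0 hU ω hyc⟩
  have hlim := tendsto_escape (H := zd d) t ({0} : Finset (V d)) (box d) box_mono exists_mem_box
  rw [← theta_eq] at hlim
  exact hc.trans_le (ge_of_tendsto' hlim key)

end Vale.Agent.P151.Red
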