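import Vale.Agent.P151.Reduction.LocalSym
import Vale.Agent.P151.Base.Bridge

/-!
The local input of the renormalisation: if the origin percolates then from a large open seed every
piece of the boundary of every large box is reached at many points, and this is stable under small
changes of the parameter.
-/

open Finset Filter Topology
open scoped unitInterval

namespace Vale.Agent.P151.Red

open Vale.Agent.P165 (cl edgesAt)

variable {d : ℕ}

lemma mem_cube_zero {x : V d} {r : ℕ} : x ∈ cube (0 : V d) r ↔ ∀ j, (x j).natAbs ≤ r := by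
  rw [mem_cube]
  exact forall_congr' fun j => by simp only [Pi.zero_apply]; omega

/-- All the boundary pieces of the box of radius `r` at the origin. -/
noncomputable def rim (d r : ℕ) : Finset (V d) :=
  (univ : Finset (Fin d × (Fin d → ℤˣ))).biUnion fun q => piece r q.1 q.2 0

lemma mem_rim {r : ℕ} {x : V d} :
    x ∈ rim d r ↔ x ∈ cube (0 : V d) r ∧ ∃ i, (x i).natAbs = r := by
  constructor
  · intro h
    obtain ⟨q, -, hq⟩ := mem_biUnion.1 h
    obtain ⟨h1, h2, -⟩ := mem_piece.1 hq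
    refine ⟨h1, q.1, ?_⟩
    rcases Int.units_eq_one_or (q.2 q.1) with e | e <;> simp [e] at h2 <;> omega
  · rintro ⟨h1, i, hi⟩
    refine mem_biUnion.2 ⟨(i, fun j => if 0 ≤ x j then 1 else -1), mem_univ _,
      mem_piece.2 ⟨h1, ?_, fun j => ?_⟩⟩
    · by_cases h : 0 ≤ x i <;> simp [h] <;> omega
    · by_cases h : 0 ≤ x j <;> simp [h]; omega

/-- What an open seed at the origin reaches with the open edges `η`. -/
noncomputable def reach0 (m : ℕ) (η : Finset (Sym2 (V d))) : Set (V d) :=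
  cl {0} (seedE m 0 ∪ η)

/-- The seed reaches the rim of radius `r`. -/
def HitRim (m r : ℕ) (η : Finset (Sym2 (V d))) : Prop := ∃ x ∈ rim d r, x ∈ reach0 m η

/-- Probability that the seed reaches the rim of radius `r`. -/
noncomputable def hitP (d : ℕ) (t : ℝ) (m r : ℕ) : ℝ :=
  P165.pr t (inEdges (cube (0 : V d) r)) (HitRim m r)

/-- The seed is internally connected. -/
lemma cube_subset_reach0 (m : ℕ) (η : Finset (Sym2 (V d))) :
    ↑(cube (0 : V d) m) ⊆ reach0 m η := by
  intro x hx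
  rw [mem_coe] at hx
  induction hn : ∑ j, (x j).natAbs using Nat.strong_induction_on generalizing x with
  | _ n ih =>
    by_cases h0 : x = 0
    · rw [h0]; exact P165.subset_cl _ _ rfl
    obtain ⟨i, hi⟩ : ∃ i, x i ≠ 0 := by
      by_contra h
      push Not at h
      exact h0 (funext h)
    obtain ⟨z, hz, hzn, hxz⟩ : ∃ z, z ∈ cube (0 : V d) m ∧ ∑ j, (z j).natAbs < n ∧
        (zd d).Adj z x := by
      refine ⟨Function.update x i (if 0 ≤ x i then x i - 1 else x i + 1),
        mem_cube_zero.2 fun j => ?_, ?_, ⟨i, ?_, fun j hj => by simp [hj]⟩⟩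
      · have := mem_cube_zero.1 hx j
        by_cases hj : j = i
        · subst hj; simp only [Function.update_self]; split_ifs <;> omega
        · simp [hj, this]
      · rw [← hn]
        refine sum_lt_sum (fun j _ => ?_) ⟨i, mem_univ _, ?_⟩
        · by_cases hj : j = i
          · subst hj; simp only [Function.update_self]; split_ifs <;> omega
          · simp [hj]
        · simp only [Function.update_self]; split_ifs <;> omega
      · simp only [Function.update_self]; split_ifs <;> omega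
    refine P165.cl_step (ih _ hzn hz rfl) ?_
    exact mem_union_left _ (mem_inEdges.2 ⟨hxz, hz, hx⟩)

lemma edge_adj {m r : ℕ} {η : Finset (Sym2 (V d))} (hη : η ⊆ inEdges (cube (0 : V d) r))
    {y w : V d} (h : s(y, w) ∈ seedE m (0 : V d) ∪ η) : (zd d).Adj y w := by
  rcases mem_union.1 h with h | h
  · exact (mem_inEdges.1 h).1
  · exact (mem_inEdges.1 (hη h)).1

/-- Everything reached with edges inside the box stays in the box. -/
lemma reach0_subset_cube {m r : ℕ} (hmr : m ≤ r) {η : Finset (Sym2 (V d))}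
    (hη : η ⊆ inEdges (cube (0 : V d) r)) : reach0 m η ⊆ ↑(cube (0 : V d) r) := by
  refine P165.cl_subset (by simp [self_mem_cube]) fun y w _ h => ?_
  rcases mem_union.1 h with h | h
  · exact cube_mono 0 hmr (mem_inEdges.1 h).2.2
  · exact (mem_inEdges.1 (hη h)).2.2

lemma edgesAt_subset_inEdges (r : ℕ) :
    edgesAt (zd d) (cube (0 : V d) r) ⊆ inEdges (cube (0 : V d) (r + 1)) := by
  intro e he
  simp only [edgesAt, mem_biUnion, mem_image, SimpleGraph.mem_neighborFinset] at he
  obtain ⟨x, hx, y, hxy, rfl⟩ := he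
  refine mem_inEdges.2 ⟨hxy, cube_mono 0 (Nat.le_succ r) hx, mem_cube_zero.2 fun j => ?_⟩
  obtain ⟨i, h, e⟩ := hxy
  have := mem_cube_zero.1 hx j
  by_cases hj : j = i
  · subst hj; omega
  · rw [← e j hj]; omega

/-- Leaving a smaller box means reaching the rim. -/
lemma esc_le_hitP {t : ℝ} (h0 : 0 ≤ t) (h1 : t ≤ 1) {m r : ℕ} (hmr : m < r) :
    P165.pr t (edgesAt (zd d) (cube (0 : V d) (r - 1)))
        (Esc (box d m) (cube (0 : V d) (r - 1))) ≤ hitP d t m r := by
  obtain ⟨r, rfl⟩ : ∃ r', r = r' + 1 := ⟨r - 1, by omega⟩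
  rw [Nat.add_sub_cancel, ← P165.pr_marginal t (edgesAt_subset_inEdges r)]
  refine P165.pr_mono h0 h1 fun η hη hesc => ?_
  obtain ⟨y, ⟨x, hx, hy⟩, hyout⟩ := Set.not_subset.1 hesc
  have hsub : η ∩ edgesAt (zd d) (cube (0 : V d) r) ⊆ seedE m 0 ∪ η :=
    inter_subset_left.trans subset_union_right
  have hxc : x ∈ reach0 m η := cube_subset_reach0 m η (by
    rw [mem_coe] at hx ⊢
    exact mem_cube_zero.2 (mem_box.1 hx))
  have hy' : y ∈ reach0 m η :=
    P165.cl_trans (Set.singleton_subset_iff.2 hxc) hsub ⟨x, rfl, hy⟩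
  have hycube := reach0_subset_cube (by omega) hη hy'
  rw [mem_coe] at hycube hyout
  refine ⟨y, mem_rim.2 ⟨hycube, ?_⟩, hy'⟩
  by_contra hno
  push Not at hno
  exact hyout (mem_cube_zero.2 fun j => by
    have := mem_cube_zero.1 hycube j
    have := hno j
    omega)

/-- Reaching the next rim goes through an open edge that leaves the box at a reached rim point. -/
lemma hitRim_succ {m r : ℕ} (hmr : m ≤ r) {η : Finset (Sym2 (V d))}
    (hη : η ⊆ inEdges (cube (0 : V d) (r + 1))) (h : HitRim m (r + 1) η) :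
    ∃ x y, x ∈ rim d r ∧ x ∈ reach0 m (η ∩ inEdges (cube (0 : V d) r)) ∧
      y ∉ cube (0 : V d) r ∧ (zd d).Adj x y ∧ s(x, y) ∈ η := by
  by_contra hno
  push Not at hno
  obtain ⟨z, hz, hzc⟩ := h
  set C := reach0 m (η ∩ inEdges (cube (0 : V d) r))
  have hC : C ⊆ ↑(cube (0 : V d) r) := reach0_subset_cube hmr inter_subset_right
  have hsub : reach0 m η ⊆ C := by
    refine P165.cl_subset (Set.singleton_subset_iff.2 (P165.subset_cl _ _ rfl))
      fun y w hy hyw => ?_
    have hadj := edge_adj hη hyw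
    rcases mem_union.1 hyw with h' | h'
    · exact P165.cl_step hy (mem_union_left _ h')
    by_cases hw : w ∈ cube (0 : V d) r
    · exact P165.cl_step hy
        (mem_union_right _ (mem_inter.2 ⟨h', mem_inEdges.2 ⟨hadj, hC hy, hw⟩⟩))
    · refine absurd h' (hno y w (mem_rim.2 ⟨hC hy, ?_⟩) hy hw hadj)
      by_contra hno'
      push Not at hno'
      refine hw (mem_cube_zero.2 fun j => ?_)
      obtain ⟨i, hi, he⟩ := hadj
      have := mem_cube_zero.1 (hC hy) j
      have := hno' j
      by_cases hj : j = i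
      · subst hj; omega
      · rw [← he j hj]; omega
  obtain ⟨-, i, hi⟩ := mem_rim.1 hz
  have := mem_cube_zero.1 (hC (hsub hzc)) i
  omega

lemma card_neighborFinset_le (x : V d) : ((zd d).neighborFinset x).card ≤ 2 * d := by
  classical
  refine (card_le_card (t := (univ : Finset (Fin d × Bool)).image fun q =>
    Function.update x q.1 (if q.2 then x q.1 + 1 else x q.1 - 1)) fun y hy => ?_).trans
    (card_image_le.trans (by simp [mul_comm]))
  rw [SimpleGraph.mem_neighborFinset] at hy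
  obtain ⟨i, h, e⟩ := hy
  rcases h with h | h
  · refine mem_image.2 ⟨(i, false), mem_univ _, funext fun j => ?_⟩
    by_cases hj : j = i
    · subst hj; simp [h]
    · simp [hj, e j hj]
  · refine mem_image.2 ⟨(i, true), mem_univ _, funext fun j => ?_⟩
    by_cases hj : j = i
    · subst hj; simp [h]
    · simp [hj, e j hj]

/-- Few contacts are expensive: they lose a proportion of the probability to reach further. -/
lemma few_le_drop {t : ℝ} (h0 : 0 ≤ t) (h1 : t ≤ 1) {m r : ℕ} (hmr : m ≤ r) (L : ℕ) :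
    (1 - t) ^ (2 * d * L) * P165.pr t (inEdges (cube (0 : V d) r))
        (fun η => HitRim m r η ∧ ¬ Hits (rim d r) L (reach0 m η))
      ≤ hitP d t m r - hitP d t m (r + 1) := by
  classical
  set U := inEdges (cube (0 : V d) r)
  set U' := inEdges (cube (0 : V d) (r + 1))
  have hUU : U ⊆ U' := inEdges_mono (cube_mono 0 (Nat.le_succ r))
  set c := (1 - t) ^ (2 * d * L)
  set p : Sym2 (V d) → ℝ := fun _ => t
  have p0 : ∀ e, 0 ≤ p e := fun _ => h0
  have p1 : ∀ e, p e ≤ 1 := fun _ => h1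
  simp only [hitP, ← Fin.pr_eq_uniform, Fin.pr]
  set few := fun η => HitRim m r η ∧ ¬ Hits (rim d r) L (reach0 m η)
  have key : Fin.ev p U' (fun η => Fin.ind (HitRim m (r + 1) η)) ≤
      Fin.ev p U fun ζ => Fin.ind (HitRim m r ζ) - c * Fin.ind (few ζ) := by
    conv_lhs => rw [← union_sdiff_of_subset hUU]
    rw [Fin.ev_split disjoint_sdiff]
    refine Fin.ev_mono p0 p1 fun ζ hζ => ?_
    have hinter : ∀ η, η ⊆ U' \ U → (ζ ∪ η) ∩ U = ζ := fun η hη => by
      rw [union_inter_distrib_right, inter_eq_left.2 hζ,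
        disjoint_iff_inter_eq_empty.1 (disjoint_of_subset_left hη sdiff_disjoint), union_empty]
    have hsub : ∀ η, η ⊆ U' \ U → ζ ∪ η ⊆ U' := fun η hη =>
      union_subset (hζ.trans hUU) (hη.trans sdiff_subset)
    by_cases hr : HitRim m r ζ
    · rw [Fin.ind_true hr]
      by_cases hf : Hits (rim d r) L (reach0 m ζ)
      · rw [Fin.ind_false (fun h => h.2 hf), mul_zero, sub_zero]
        exact (Fin.ev_mono p0 p1 fun η _ => Fin.ind_le_one _).trans_eq (Fin.ev_const 1)
      · rw [Fin.ind_true (show few ζ from ⟨hr, hf⟩), mul_one]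
        set Y := (rim d r).filter fun x => x ∈ reach0 m ζ
        have hY : Y.card ≤ L := by
          by_contra hlt
          exact hf ⟨Y, filter_subset _ _, fun x hx => (mem_filter.1 hx).2, by omega⟩
        set Fe := (edgesAt (zd d) Y).filter fun e => e ∈ U' \ U
        have hFe : Fe.card ≤ 2 * d * L := by
          refine (card_filter_le _ _).trans (card_biUnion_le.trans ?_)
          refine (sum_le_card_nsmul Y _ (2 * d) fun x _ =>
            card_image_le.trans (card_neighborFinset_le x)).trans ?_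
          rw [smul_eq_mul, mul_comm]
          exact Nat.mul_le_mul_left _ hY
        have hclosed : Fin.pr p (U' \ U) (fun η => η ∩ Fe = ∅) = (1 - t) ^ Fe.card := by
          rw [Fin.pr_eq_uniform]
          have h' := P165.pr_closed t (F := Fe) (U := U' \ U)
            (fun e he => (mem_filter.1 he).2) (fun _ => True)
          simpa [P165.pr_true] using h'
        have hev : Fin.ev p (U' \ U) (fun η => Fin.ind (HitRim m (r + 1) (ζ ∪ η))) ≤
            Fin.ev p (U' \ U) fun η => Fin.ind (¬ η ∩ Fe = ∅) := by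
          refine Fin.ev_mono p0 p1 fun η hη => Fin.ind_mono fun h hempty => ?_
          obtain ⟨x, y, hx, hxc, hy, hadj, he⟩ := hitRim_succ hmr (hsub η hη) h
          rw [hinter η hη] at hxc
          have heU : s(x, y) ∉ U := fun hh => hy (mem_inEdges.1 hh).2.2
          have heη : s(x, y) ∈ η := (mem_union.1 he).resolve_left fun hh => heU (hζ hh)
          refine (eq_empty_iff_forall_notMem.1 hempty) _ (mem_inter.2 ⟨heη,
            mem_filter.2 ⟨mem_biUnion.2 ⟨x, mem_filter.2 ⟨hx, hxc⟩,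
              mem_image.2 ⟨y, by simpa using hadj, rfl⟩⟩, hη heη⟩⟩)
        have hc : c ≤ (1 - t) ^ Fe.card :=
          pow_le_pow_of_le_one (by linarith) (by linarith) hFe
        have hcompl := Fin.pr_compl (p := p) (U := U' \ U) (fun η => η ∩ Fe = ∅)
        simp only [Fin.pr] at hclosed hcompl
        linarith
    · rw [Fin.ind_false hr, Fin.ind_false (fun h => hr h.1), mul_zero, sub_zero]
      refine ((Fin.ev_congr fun η hη => Fin.ind_false fun h => hr ?_).trans
        (Fin.ev_const 0)).le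
      obtain ⟨x, y, hx, hxc, -⟩ := hitRim_succ hmr (hsub η hη) h
      exact ⟨x, hx, hinter η hη ▸ hxc⟩
  rw [Fin.ev_sub, Fin.ev_mul_left] at key
  linarith

/-- Decreasing events are positively correlated, any number of them. -/
lemma prod_le_pr_forall {ι : Type*} (s : Finset ι) {p : Sym2 (V d) → ℝ} (h0 : ∀ e, 0 ≤ p e)
    (h1 : ∀ e, p e ≤ 1) (U : Finset (Sym2 (V d))) (A : ι → Finset (Sym2 (V d)) → Prop)
    (hA : ∀ i, ∀ S T, S ⊆ T → A i T → A i S) :
    ∏ i ∈ s, Fin.pr p U (A i) ≤ Fin.pr p U fun η => ∀ i ∈ s, A i η := by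
  classical
  induction s using Finset.induction_on with
  | empty => simp [Fin.pr, Fin.ind, Fin.ev_const]
  | insert a s ha ih =>
    rw [prod_insert ha]
    refine (mul_le_mul_of_nonneg_left ih (Fin.pr_nonneg h0 h1 _)).trans ?_
    have h := Fin.ev_mul_ge h0 h1 U (f := fun η => -Fin.ind (A a η))
      (g := fun η => -Fin.ind (∀ i ∈ s, A i η))
      (fun S T h => neg_le_neg (Fin.ind_mono fun hh => hA a S T h hh))
      (fun S T h => neg_le_neg (Fin.ind_mono fun hh i hi => hA i S T h (hh i hi)))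
    simp only [Fin.ev_neg, neg_mul_neg, ← Fin.ind_and] at h
    refine h.trans (le_of_eq (Fin.pr_congr fun η _ => ?_))
    simp

lemma hitP_le_one {t : ℝ} (h0 : 0 ≤ t) (h1 : t ≤ 1) (m r : ℕ) : hitP d t m r ≤ 1 :=
  P165.pr_le_one h0 h1 _ _

/-- With a percolating origin the seed has many contacts on the whole rim of every large box. -/
lemma rim_few_small (p : I) (hth : 0 < theta d p) (hp1 : (p : ℝ) < 1) {δ : ℝ} (hδ : 0 < δ) :
    ∃ m0, ∀ m, m0 ≤ m → ∀ L : ℕ, ∃ r0, ∀ r, r0 ≤ r →
      P165.pr (p : ℝ) (inEdges (cube (0 : V d) r))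
        (fun η => ¬ Hits (rim d r) L (reach0 m η)) ≤ δ := by
  obtain ⟨m0, hm0⟩ := box_escape_of_theta hth (half_pos hδ)
  refine ⟨m0, fun m hm L => ?_⟩
  have h0 : (0 : ℝ) ≤ p := p.2.1
  have hc : 0 < (1 - (p : ℝ)) ^ (2 * d * L) := pow_pos (by linarith) _
  set a := fun j => hitP d (p : ℝ) m (m + 1 + j)
  have hanti : Antitone a := antitone_nat_of_succ_le fun j => by
    have h' := few_le_drop (d := d) h0 hp1.le (show m ≤ m + 1 + j by omega) L
    have := P165.pr_nonneg h0 hp1.le (inEdges (cube (0 : V d) (m + 1 + j)))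
      (fun η => HitRim m (m + 1 + j) η ∧ ¬ Hits (rim d (m + 1 + j)) L (reach0 m η))
    have := mul_nonneg hc.le this
    change hitP d p m (m + 1 + j + 1) ≤ hitP d p m (m + 1 + j)
    linarith
  have hlim : Tendsto a atTop (𝓝 (⨅ j, a j)) :=
    tendsto_atTop_ciInf hanti ⟨0, by rintro _ ⟨j, rfl⟩; exact P165.pr_nonneg h0 hp1.le _ _⟩
  have hdrop : Tendsto (fun j => a j - a (j + 1)) atTop (𝓝 0) := by
    simpa using hlim.sub (hlim.comp (tendsto_add_atTop_nat 1))
  obtain ⟨j0, hj0⟩ := eventually_atTop.1 (hdrop.eventually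
    (eventually_lt_nhds (show (0 : ℝ) < (1 - (p : ℝ)) ^ (2 * d * L) * (δ / 2) by positivity)))
  refine ⟨m + 1 + j0, fun r hr => ?_⟩
  obtain ⟨j, rfl⟩ : ∃ j, r = m + 1 + j := ⟨r - (m + 1), by omega⟩
  have hfew := few_le_drop (d := d) h0 hp1.le (show m ≤ m + 1 + j by omega) L
  have hj := hj0 j (by omega)
  change hitP d p m (m + 1 + j) - hitP d p m (m + 1 + j + 1) < _ at hj
  have hfew' := le_of_mul_le_mul_left (hfew.trans hj.le) hc
  have hhit : 1 - δ / 2 ≤ hitP d p m (m + 1 + j) :=
    ((hm0 m hm _).le).trans (esc_le_hitP h0 hp1.le (by omega))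
  set U := inEdges (cube (0 : V d) (m + 1 + j))
  have hsplit : P165.pr (p : ℝ) U (fun η => ¬ Hits (rim d (m + 1 + j)) L (reach0 m η)) ≤
      P165.pr (p : ℝ) U (fun η => ¬ HitRim m (m + 1 + j) η) +
        P165.pr (p : ℝ) U (fun η => HitRim m (m + 1 + j) η ∧
          ¬ Hits (rim d (m + 1 + j)) L (reach0 m η)) := by
    simp only [← Fin.pr_eq_uniform]
    refine le_trans ?_ (le_add_of_nonneg_right (Fin.pr_nonneg (fun _ => h0) (fun _ => hp1.le)
      fun η => ¬ HitRim m (m + 1 + j) η ∧ (HitRim m (m + 1 + j) η ∧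
        ¬ Hits (rim d (m + 1 + j)) L (reach0 m η))))
      |>.trans_eq (Fin.pr_or_and _ _)
    exact Fin.pr_mono (fun _ => h0) (fun _ => hp1.le) fun η _ h => by tauto
  have hcompl := P165.pr_compl (p : ℝ) U (HitRim m (m + 1 + j))
  simp only [hitP] at hhit
  linarith

lemma hits_of_all_pieces {r K : ℕ} {C : Set (V d)}
    (h : ∀ q : Fin d × (Fin d → ℤˣ), ¬ Hits (piece r q.1 q.2 0) K C) (hd : 0 < d) :
    ¬ Hits (rim d r) (Fintype.card (Fin d × (Fin d → ℤˣ)) * K) C := by
  classical
  have : Nonempty (Fin d) := ⟨⟨0, hd⟩⟩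
  rintro ⟨Y, hY, hC, hK⟩
  have hlt : ∀ q : Fin d × (Fin d → ℤˣ), (Y ∩ piece r q.1 q.2 0).card < K := fun q => by
    by_contra hh
    exact h q ⟨_, inter_subset_right, fun y hy => hC (mem_inter.1 hy).1, by omega⟩
  have hcover : Y ⊆ univ.biUnion fun q : Fin d × (Fin d → ℤˣ) => Y ∩ piece r q.1 q.2 0 :=
    fun y hy => by
      obtain ⟨q, -, hq⟩ := mem_biUnion.1 (hY hy)
      exact mem_biUnion.2 ⟨q, mem_univ _, mem_inter.2 ⟨hy, hq⟩⟩
  have := ((card_le_card hcover).trans card_biUnion_le).trans_lt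
    (sum_lt_sum_of_nonempty univ_nonempty fun q _ => hlt q)
  simp only [sum_const, card_univ, smul_eq_mul] at this
  omega

/-- One piece at the origin: failures are rare. -/
lemma piece_small (hd : 2 ≤ d) (p : I) (hth : 0 < theta d p) {ε : ℝ} (hε : 0 < ε) :
    ∃ m0, ∀ m, m0 ≤ m → ∀ K : ℕ, ∃ r0, ∀ r, r0 ≤ r →
      hopFail (p : ℝ) m K r ⟨0, by omega⟩ 1 (0 : V d) ≤ ε := by
  have h0 : (0 : ℝ) ≤ p := p.2.1
  set i₀ : Fin d := ⟨0, by omega⟩
  rcases lt_or_eq_of_le p.2.2 with hp1 | hp1
  · set M := Fintype.card (Fin d × (Fin d → ℤˣ))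
    have : Nonempty (Fin d) := ⟨i₀⟩
    obtain ⟨m0, hm0⟩ := rim_few_small p hth hp1 (pow_pos hε M)
    refine ⟨m0, fun m hm K => ?_⟩
    obtain ⟨r0, hr0⟩ := hm0 m hm (M * K)
    refine ⟨r0, fun r hr => ?_⟩
    have hx : 0 ≤ hopFail (p : ℝ) m K r i₀ 1 (0 : V d) :=
      Fin.pr_nonneg (fun _ => h0) (fun _ => p.2.2) _
    have hprod := prod_le_pr_forall (univ : Finset (Fin d × (Fin d → ℤˣ)))
      (p := fun _ => (p : ℝ)) (fun _ => h0) (fun _ => p.2.2) (inEdges (cube (0 : V d) r))
      (fun q η => ¬ Hits (piece r q.1 q.2 0) K (reach0 m η))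
      (fun q S T hST hT hS => hT
        (hits_mono (P165.cl_mono subset_rfl (union_subset_union_right hST)) hS))
    rw [prod_congr rfl (fun q _ => show _ = hopFail (p : ℝ) m K r i₀ 1 (0 : V d) from
      hopFail_eq (p : ℝ) m K r i₀ q.1 q.2 0), prod_const, card_univ] at hprod
    refine le_of_pow_le_pow_left₀ Fintype.card_ne_zero hε.le (hprod.trans ?_)
    refine le_trans ?_ (hr0 r hr)
    rw [Fin.pr_eq_uniform]
    exact P165.pr_mono h0 p.2.2 fun η _ h =>
      hits_of_all_pieces (fun q => h q (mem_univ q)) (by omega)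
  · refine ⟨0, fun m _ K => ⟨m + K, fun r hr => ?_⟩⟩
    suffices h : Hits (piece r i₀ 1 (0 : V d)) K
        (cl {(0 : V d)} (seedE m 0 ∪ inEdges (cube (0 : V d) r))) by
      rw [hopFail, Fin.pr_eq_uniform, hp1]
      have h' := P165.pr_compl (1 : ℝ) (inEdges (cube (0 : V d) r))
        (fun η => Hits (piece r i₀ 1 (0 : V d)) K (cl {(0 : V d)} (seedE m 0 ∪ η)))
      rw [P165.pr_one_eq _ h] at h'
      linarith
    set C := cl {(0 : V d)} (seedE m 0 ∪ inEdges (cube (0 : V d) r))
    have hC : ↑(cube (0 : V d) r) ⊆ C :=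
      (cube_subset_reach0 r ∅).trans (P165.cl_mono subset_rfl (by simp [seedE]))
    set j₀ : Fin d := ⟨1, by omega⟩
    have hij : j₀ ≠ i₀ := by simp [i₀, j₀]
    set g : ℕ → V d := fun k j => if j = i₀ then r else if j = j₀ then k else 0
    have hginj : Function.Injective g := fun a b h => by
      have := congrFun h j₀
      simpa [g, hij] using this
    refine ⟨(range (r + 1)).image g, fun x hx => ?_, fun x hx => ?_, ?_⟩
    · obtain ⟨k, hk, rfl⟩ := mem_image.1 hx
      rw [mem_range] at hk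
      refine mem_piece.2 ⟨mem_cube_zero.2 fun j => ?_, by simp [g], fun j => ?_⟩
      · simp only [g]; split_ifs <;> omega
      · simp only [g, Pi.one_apply, Units.val_one, one_mul, Pi.zero_apply, sub_zero]
        split_ifs <;> omega
    · obtain ⟨k, hk, rfl⟩ := mem_image.1 hx
      rw [mem_range] at hk
      exact hC (mem_cube_zero.2 fun j => by simp only [g]; split_ifs <;> omega)
    · rw [card_image_of_injective _ hginj, card_range]; omega

/-- The local input of the renormalisation, stable near `p`. -/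
theorem exists_hop {d : ℕ} (hd : 2 ≤ d) (p : I) (hth : 0 < theta d p) {ε : ℝ} (hε : 0 < ε) :
    ∃ m0 : ℕ, ∀ m, m0 ≤ m → ∀ K : ℕ, ∃ n0, ∀ n, n0 ≤ n →
      ∀ᶠ t in 𝓝 (p : ℝ), t ∈ Set.Icc (0 : ℝ) 1 → Hop d t m K n ε := by
  obtain ⟨m0, hm0⟩ := piece_small hd p hth (half_pos hε)
  refine ⟨m0, fun m hm K => ?_⟩
  obtain ⟨r0, hr0⟩ := hm0 m hm K
  refine ⟨r0, fun n hn => ?_⟩
  set i₀ : Fin d := ⟨0, by omega⟩
  have hev : ∀ᶠ t in 𝓝 (p : ℝ), ∀ r ∈ Finset.Icc n (4 * n),
      hopFail t m K r i₀ 1 (0 : V d) < ε := by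
    refine (Finset.eventually_all _).2 fun r hr => ?_
    have hc : Continuous fun t => hopFail t m K r i₀ 1 (0 : V d) := by
      simp only [hopFail, Fin.pr_eq_uniform]
      exact continuous_pr _ _
    exact hc.continuousAt.eventually (eventually_lt_nhds
      ((hr0 r (hn.trans (mem_Icc.1 hr).1)).trans_lt (half_lt_self hε)))
  filter_upwards [hev] with t ht _ r hr hr' i s b
  rw [hopFail_eq t m K r i₀ i s b]
  exact (ht r (mem_Icc.2 ⟨hr, hr'⟩)).le

end Vale.Agent.P151.Red
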