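import Vale.Agent.P151.Reduction.Chain
import Vale.Agent.P151.Reduction.CoarseGeo
import Vale.Agent.P151.Reduction.Local
import Vale.Agent.P151.Reduction.Escape
import Vale.Agent.P151.Base.Bridge

/-!
Percolation on `ℤ^d` is an open property of the parameter; hence it is absent at the threshold.
-/

open Finset Filter MeasureTheory
open scoped unitInterval Topology

namespace Vale.Agent.P151.Red

open Vale.Agent.P165 (cl cl_mono bondMeasure infAt pc)

variable {d : ℕ}

lemma gseq_mono_index {ε δ : ℝ} (hε : 0 ≤ ε) (hδ : 0 ≤ δ) : ∀ j, 0 ≤ gseq ε δ j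
  | 0 => hε
  | j + 1 => by
    have := gseq_mono_index hε hδ j
    rw [gseq]; positivity

/-- For a bounded number of hops the error is as small as wanted. -/
lemma exists_gseq_le (J : ℕ) {η : ℝ} (hη : 0 < η) :
    ∃ ε, 0 < ε ∧ ε ≤ η ∧ gseq ε ε J ≤ η := by
  have hc : Continuous fun ε => gseq ε ε J := by
    induction J with
    | zero => exact continuous_id
    | succ j ih =>
      simp only [gseq]
      fun_prop
  have h0 : gseq 0 0 J = 0 := by
    clear hc
    induction J with
    | zero => rfl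
    | succ j ih => simp [gseq, ih]
  have ht := hc.tendsto 0
  rw [h0] at ht
  obtain ⟨r, hr, hball⟩ := Metric.eventually_nhds_iff.1 (ht.eventually (eventually_le_nhds hη))
  refine ⟨min η (r / 2), lt_min hη (by linarith), min_le_left _ _, hball ?_⟩
  rw [Real.dist_eq, sub_zero, abs_of_pos (lt_min hη (by linarith))]
  linarith [min_le_right η (r / 2)]

lemma pr_const_congr {U : Finset (Sym2 (V d))} (t : ℝ) {Q Q' : Finset (Sym2 (V d)) → Prop}
    (h : ∀ ω, Q ω → Q' ω) (h0 : 0 ≤ t) (h1 : t ≤ 1) :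
    Fin.pr (fun _ => t) U Q ≤ Fin.pr (fun _ => t) U Q' :=
  Fin.pr_mono (fun _ => h0) (fun _ => h1) fun ω _ => h ω

/-- Percolation at `p` persists at all nearby parameters. -/
theorem theta_pos_eventually (hd : 2 ≤ d) (p : I) (hθ : 0 < theta d p) (hp : 0 < (p : ℝ)) :
    ∀ᶠ t in 𝓝 (p : ℝ), ∀ ht : t ∈ Set.Icc (0 : ℝ) 1, 0 < theta d ⟨t, ht⟩ := by
  have : NeZero d := ⟨by omega⟩
  set Q : ℝ := ((1 : ℝ) / 36) ^ 16
  have hQ : 0 < Q := by positivity
  set g := Q / 4 with hgdef
  have hg : 0 < g := by positivity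
  obtain ⟨ε, hε, hεη, hseq⟩ := exists_gseq_le (2 * 40 + 4) (η := g * Q / 16) (by positivity)
  obtain ⟨m, hm⟩ := exists_hop hd p hθ hε
  set i₁ : Fin d := ⟨0, by omega⟩
  set i₂ : Fin d := ⟨1, by omega⟩
  set c := (oEdges m i₁ 1 (0 : V d)).card
  obtain ⟨k, hk⟩ := exists_nat_gt (4 / (((p : ℝ) / 2) ^ c * ε))
  set K' := k + 1
  obtain ⟨n₀, hn₀⟩ := hm m le_rfl (K' * sepC d m)
  let G : Geo d := ⟨i₁, i₂, m, max n₀ (2 * (m + 1)), 40, by simp [i₁, i₂, Fin.ext_iff],
    le_max_right _ _, le_rfl⟩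
  filter_upwards [hn₀ G.n (le_max_left _ _), eventually_gt_nhds (show (p : ℝ) / 2 < p by linarith)]
    with t hHop htp ht
  have t0 : 0 < t := lt_trans (by linarith) htp
  have hδ : 4 / (t ^ c * (K' : ℝ)) ≤ ε := by
    have hpc : 0 < ((p : ℝ) / 2) ^ c := by positivity
    have hle : ((p : ℝ) / 2) ^ c ≤ t ^ c := pow_le_pow_left₀ (by positivity) htp.le c
    rw [div_lt_iff₀ (by positivity)] at hk
    rw [div_le_iff₀ (by positivity)]
    have hkK : (k : ℝ) ≤ K' := by simp [K']
    calc (4 : ℝ) ≤ k * (((p : ℝ) / 2) ^ c * ε) := hk.le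
      _ ≤ K' * (t ^ c * ε) := mul_le_mul hkK
          (mul_le_mul_of_nonneg_right hle hε.le) (by positivity) (by positivity)
      _ = ε * (t ^ c * K') := by ring
  set g₀ := gseq ε ε (2 * 40 + 4)
  have hg₀ : 0 ≤ g₀ := gseq_mono_index hε.le hε.le _
  have hg₀g : g₀ / g ≤ Q / 16 := by
    rw [div_le_iff₀ hg]; linarith
  have hεQ : ε ≤ Q / 4 := by
    refine hεη.trans ?_
    have : Q ≤ 1 := pow_le_one₀ (by norm_num) (by norm_num)
    rw [hgdef]; nlinarith
  have hchain := chain G (K := K' * sepC d m) t0 ht.2 hε.le (hHop ht) le_rfl (Nat.succ_pos _) hδ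
  have hQ1 : Q ≤ 1 := pow_le_one₀ (by norm_num) (by norm_num)
  refine theta_pos_of_lower (d := d) ⟨t, ht⟩ (c := t ^ c * (1 - 2 * (g₀ / g)) / 2) ?_ fun N => ?_
  · exact div_pos (mul_pos (pow_pos t0 _) (by linarith)) (by norm_num)
  · obtain ⟨U, hU⟩ := exists_coarseWindow G (N + 1)
    have h := coarse_reach (G := G) (g := g) t0 ht.2 hg hg₀ (Nat.succ_pos k) le_rfl hδ
      (show g + (4 * (g₀ / g) + ε) ≤ Q by linarith) hchain
      (U := U) (M := N + 1) G.origin_mem_gx G.cen_origin hU.lay₀ hU.gs₀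
      (fun b hb => ⟨hU.facts b hb, hU.gs₀_rev b hb, hU.sub b hb⟩) hU.disj hU.nest
    rw [oEdges_card G.m G.i₁ G.i₁ 1 1 _ 0] at h
    refine ⟨U, hU.edges, h.trans (pr_const_congr t ?_ t0.le ht.2)⟩
    rintro ω ⟨z, x, hx, hc⟩
    refine ⟨_, cen_notMem_box G ?_ hx, hc⟩
    have : (1 : ℤ) ≤ G.L := by
      have := G.hm
      have := G.hell
      simp only [Geo.L]
      exact_mod_cast Nat.one_le_iff_ne_zero.2 (Nat.mul_ne_zero (by omega) (by omega))
    push_cast
    nlinarith

/-- At parameter zero nothing percolates. -/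
lemma theta_zero (p : I) (hp : (p : ℝ) = 0) : theta d p = 0 := by
  refine le_antisymm ?_ measureReal_nonneg
  rw [theta_eq]
  refine (meet_infinite_le_escape p _ ({0} : Finset (Fin d → ℤ))).trans ?_
  classical
  rw [hp, P165.pr]
  refine (Finset.sum_eq_zero fun S hS => ?_).le
  rw [mem_filter] at hS
  rcases eq_or_ne S ∅ with rfl | hne
  · refine absurd (fun y hy => ?_) hS.2
    obtain ⟨x, hx, hr⟩ := hy
    simp only [coe_singleton, Set.mem_singleton_iff] at hx
    subst hx
    simp only [coe_empty, SimpleGraph.fromEdgeSet_empty] at hr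
    simpa using (SimpleGraph.reachable_bot.1 hr).symm
  · simp [P165.wt, zero_pow (card_ne_zero.2 (nonempty_iff_ne_empty.2 hne))]

/-- No percolation at the threshold of `ℤ^d`. -/
theorem theta_pc_eq_zero (hd : 2 ≤ d) (p : I) (hp : (p : ℝ) = pc (zd d)) : theta d p = 0 := by
  rcases eq_or_lt_of_le p.2.1 with h | h
  · exact theta_zero p h.symm
  · exact theta_eq_zero_of_open hp h fun hθ => theta_pos_eventually hd p hθ h

/-- At the threshold there is almost surely no infinite cluster. -/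
theorem infExists_pc_null (hd : 2 ≤ d) (p : I) (hp : (p : ℝ) = pc (zd d)) :
    bondMeasure (zd d) p (infExists (zd d)) = 0 := by
  by_contra h
  exact ((theta_pos_iff p).2 (pos_iff_ne_zero.2 h)).ne' (theta_pc_eq_zero hd p hp)

/-- With all edges open the origin percolates. -/
lemma theta_one_pos (hd : 1 ≤ d) (p : I) (hp : (p : ℝ) = 1) : 0 < theta d p := by
  refine theta_pos_of_lower p one_pos fun N => ?_
  set i : Fin d := ⟨0, hd⟩
  set U := inEdges (box d (N + 1))
  refine ⟨U, fun e he => ?_, ?_⟩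
  · induction e using Sym2.ind with
    | h x y => exact (mem_inEdges.1 he).1
  · rw [hp, Fin.pr, Red.ev_one (fun _ _ => rfl), Fin.ind_true]
    refine ⟨Function.update 0 i ((N : ℤ) + 1), fun h => ?_, ?_⟩
    · have := mem_box.1 h i
      simp at this
      omega
    · have hreach : ∀ k : ℕ, k ≤ N + 1 → Function.update (0 : V d) i (k : ℤ) ∈ cl {0} U := by
        intro k
        induction k with
        | zero => intro _; exact ⟨0, rfl, by simp⟩
        | succ j ih =>
          intro hj
          refine P165.cl_step (ih (by omega)) (mem_inEdges.2 ⟨?_, ?_, ?_⟩)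
          · exact ⟨i, Or.inr (by simp), fun l hl => by simp [Function.update_of_ne hl]⟩
          all_goals
            refine mem_box.2 fun l => ?_
            by_cases hl : l = i
            · subst hl; simp; omega
            · simp [Function.update_of_ne hl]
      simpa using hreach (N + 1) le_rfl

/-- The threshold of `ℤ^d` is below one. -/
theorem pc_lt_one (hd : 2 ≤ d) : pc (zd d) < 1 := by
  set one : I := ⟨1, by norm_num⟩
  have hθ : 0 < theta d one := theta_one_pos (by omega) one rfl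
  obtain ⟨δ, hδ, hball⟩ := Metric.eventually_nhds_iff.1
    (theta_pos_eventually hd one hθ (by simp [one]))
  set t := max 0 (1 - δ / 2)
  have ht : t ∈ Set.Icc (0 : ℝ) 1 := ⟨le_max_left _ _, max_le zero_le_one (by linarith)⟩
  have h := hball (y := t) (by
    simp only [one]
    rw [Real.dist_eq, abs_sub_comm, abs_of_nonneg (by linarith [ht.2])]
    linarith [le_max_right 0 (1 - δ / 2)]) ht
  refine lt_of_le_of_lt (pc_le_of_infAt ⟨t, ht⟩ (0 : Fin d → ℤ) (ENNReal.toReal_pos_iff.1 h).1) ?_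
  exact max_lt zero_lt_one (by linarith)

end Vale.Agent.P151.Red
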