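import Vale.Agent.P151.Reduction.Defs
import Vale.Agent.P165.Sharp

/-!
Symmetry of the hop failure probability: it depends neither on the base point nor on the piece.
-/

open Finset

namespace Vale.Agent.P151.Red

open Vale.Agent.P165 (cl)

variable {d : ℕ}

/-- The map of a lattice symmetry on vertices. -/
def embV (φ : zd d ≃g zd d) : V d ↪ V d := φ.toEquiv.toEmbedding

/-- The map of a lattice symmetry on unordered pairs. -/
def embE (φ : zd d ≃g zd d) : Sym2 (V d) ↪ Sym2 (V d) := (embV φ).sym2Map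

@[simp] lemma embV_apply (φ : zd d ≃g zd d) (x : V d) : embV φ x = φ x := rfl

lemma mem_map_embV {φ : zd d ≃g zd d} {X : Finset (V d)} {y : V d} :
    y ∈ X.map (embV φ) ↔ φ.symm y ∈ X := by
  constructor
  · intro h
    obtain ⟨x, hx, rfl⟩ := mem_map.1 h
    simpa using hx
  · exact fun h => mem_map.2 ⟨_, h, by simp⟩

lemma inEdges_map (φ : zd d ≃g zd d) (X : Finset (V d)) :
    inEdges (X.map (embV φ)) = (inEdges X).map (embE φ) := by
  ext e
  induction e using Sym2.ind with
  | h x y =>
    obtain ⟨a, rfl⟩ := φ.surjective x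
    obtain ⟨b, rfl⟩ := φ.surjective y
    rw [mem_inEdges, show s(φ a, φ b) = embE φ s(a, b) from rfl, mem_map', mem_inEdges,
      φ.map_adj_iff, mem_map_embV, mem_map_embV, φ.symm_apply_apply, φ.symm_apply_apply]

lemma hits_map (φ : zd d ≃g zd d) (X : Finset (V d)) (K : ℕ) (C : Set (V d)) :
    Hits (X.map (embV φ)) K C ↔ Hits X K (φ ⁻¹' C) := by
  constructor
  · rintro ⟨Y, hY, hC, hK⟩
    refine ⟨Y.map (embV φ.symm), fun y hy => ?_, fun y hy => ?_, by rwa [card_map]⟩
    · obtain ⟨x, hx, rfl⟩ := mem_map.1 hy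
      exact mem_map_embV.1 (hY hx)
    · obtain ⟨x, hx, rfl⟩ := mem_map.1 hy
      simpa using hC hx
  · rintro ⟨Y, hY, hC, hK⟩
    refine ⟨Y.map (embV φ), map_subset_map.2 hY, fun y hy => ?_, by rwa [card_map]⟩
    obtain ⟨x, hx, rfl⟩ := mem_map.1 hy
    exact hC hx

lemma preimage_cl_map (φ : zd d ≃g zd d) (b : V d) (T : Finset (Sym2 (V d))) :
    φ ⁻¹' cl {φ b} (T.map (embE φ)) = cl {b} T :=
  Set.ext fun y => P165.cl_map φ.toEquiv b y T

/-- A symmetry that respects the boxes carries the failure probability along. -/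
lemma miss_map (t : ℝ) (m K r : ℕ) (φ : zd d ≃g zd d) {b : V d}
    (hc : ∀ ρ, (cube b ρ).map (embV φ) = cube (φ b) ρ) (X : Finset (V d)) :
    P165.pr t (inEdges (cube (φ b) r))
        (fun η => ¬ Hits (X.map (embV φ)) K (cl {φ b} (seedE m (φ b) ∪ η))) =
      P165.pr t (inEdges (cube b r)) (fun η => ¬ Hits X K (cl {b} (seedE m b ∪ η))) := by
  rw [← hc r, inEdges_map, P165.pr_image]
  refine P165.pr_congr fun T _ => not_congr ?_
  rw [seedE, ← hc m, inEdges_map, ← Finset.map_union, hits_map, preimage_cl_map]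
  rfl

lemma cube_map_shift (v b : V d) (r : ℕ) :
    (cube b r).map (embV (shift v)) = cube (b + v) r := by
  ext x
  constructor
  · intro h
    obtain ⟨y, hy, rfl⟩ := mem_map.1 h
    refine mem_cube.2 fun j => ?_
    have := mem_cube.1 hy j
    simp only [embV_apply, shift_apply, Pi.add_apply]
    omega
  · intro h
    refine mem_map.2 ⟨x - v, mem_cube.2 fun j => ?_, by simp⟩
    have := mem_cube.1 h j
    simp only [Pi.add_apply] at this
    simp only [Pi.sub_apply]
    omega

lemma mem_piece {r : ℕ} {i : Fin d} {s : Fin d → ℤˣ} {b x : V d} :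
    x ∈ piece r i s b ↔ x ∈ cube b r ∧ (s i : ℤ) * (x i - b i) = r ∧
      ∀ j, 0 ≤ (s j : ℤ) * (x j - b j) := by
  classical
  simp [piece]

lemma piece_map_shift (v b : V d) (r : ℕ) (i : Fin d) (s : Fin d → ℤˣ) :
    (piece r i s b).map (embV (shift v)) = piece r i s (b + v) := by
  ext x
  constructor
  · intro h
    obtain ⟨y, hy, rfl⟩ := mem_map.1 h
    obtain ⟨h1, h2, h3⟩ := mem_piece.1 hy
    refine mem_piece.2 ⟨?_, by simpa using h2, fun j => by simpa using h3 j⟩
    exact cube_map_shift v b r ▸ mem_map_of_mem _ h1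
  · intro h
    obtain ⟨h1, h2, h3⟩ := mem_piece.1 h
    rw [← cube_map_shift v b r] at h1
    obtain ⟨y, hy, rfl⟩ := mem_map.1 h1
    exact mem_map_of_mem _ (mem_piece.2 ⟨hy, by simpa using h2, fun j => by simpa using h3 j⟩)

lemma cube_map_signedPerm (σ : Equiv.Perm (Fin d)) (s : Fin d → ℤˣ) (r : ℕ) :
    (cube (0 : V d) r).map (embV (signedPerm σ s)) = cube 0 r := by
  have habs : ∀ (x : V d), x ∈ cube (0 : V d) r ↔ ∀ j, (x j).natAbs ≤ r := fun x => by
    rw [mem_cube]
    exact forall_congr' fun j => by simp only [Pi.zero_apply]; omega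
  ext x
  obtain ⟨y, rfl⟩ := (signedPerm σ s).surjective x
  rw [show signedPerm σ s y = embV (signedPerm σ s) y from rfl, mem_map', habs, habs]
  simp only [embV_apply, signedPerm_apply]
  constructor
  · intro h j
    rcases Int.units_eq_one_or (s j) with e | e <;> simp [e, h (σ j)]
  · intro h j
    have := h (σ.symm j)
    rcases Int.units_eq_one_or (s (σ.symm j)) with e | e <;> simpa [e] using this

/-- The signed permutation that carries the positive piece in direction `i₀` to a given one. -/
def toPiece (i₀ i : Fin d) (s : Fin d → ℤˣ) : zd d ≃g zd d := signedPerm (Equiv.swap i i₀) s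

lemma piece_map_toPiece (r : ℕ) (i₀ i : Fin d) (s : Fin d → ℤˣ) :
    (piece r i₀ 1 (0 : V d)).map (embV (toPiece i₀ i s)) = piece r i s 0 := by
  ext x
  obtain ⟨y, rfl⟩ := (toPiece i₀ i s).surjective x
  rw [show toPiece i₀ i s y = embV (toPiece i₀ i s) y from rfl, mem_map', mem_piece, mem_piece]
  have hcube : embV (toPiece i₀ i s) y ∈ cube (0 : V d) r ↔ y ∈ cube (0 : V d) r := by
    conv_lhs => rw [← cube_map_signedPerm (Equiv.swap i i₀) s r]
    exact mem_map' _
  have hsq : ∀ j, (s j : ℤ) * toPiece i₀ i s y j = y (Equiv.swap i i₀ j) := by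
    intro j
    rcases Int.units_eq_one_or (s j) with e | e <;> simp [toPiece, e]
  rw [hcube]
  simp only [embV_apply, Pi.one_apply, Units.val_one, one_mul, Pi.zero_apply, sub_zero, hsq,
    Equiv.swap_apply_left]
  exact and_congr_right fun _ => and_congr_right fun _ =>
    (Equiv.forall_congr_right (Equiv.swap i i₀) (q := fun j => 0 ≤ y j)).symm

/-- The failure probability of every piece at every point equals the one at the origin in a fixed
direction. -/
theorem hopFail_eq (t : ℝ) (m K r : ℕ) (i₀ i : Fin d) (s : Fin d → ℤˣ) (b : V d) :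
    hopFail t m K r i s b = hopFail t m K r i₀ 1 0 := by
  simp only [hopFail, Fin.pr_eq_uniform]
  have h1 := miss_map t m K r (toPiece i₀ i s) (b := (0 : V d))
    (fun ρ => by
      rw [toPiece, cube_map_signedPerm]
      congr 1
      ext j; simp) (piece r i₀ 1 0)
  rw [piece_map_toPiece, show toPiece i₀ i s (0 : V d) = 0 by ext j; simp [toPiece]] at h1
  have h2 := miss_map t m K r (shift b) (b := (0 : V d))
    (fun ρ => by rw [cube_map_shift]; simp) (piece r i s 0)
  rw [piece_map_shift, show shift b (0 : V d) = b by simp, zero_add] at h2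
  rw [h2, h1]

end Vale.Agent.P151.Red
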